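import Vale.Agent.P259.Elem.Pi

/-!
# P259, module C: connected, commuting loops and no first homology leave no loops

The classes of loops form an abelian group; the chosen paths to the first vertices of the
elements give a cocycle with values in it, which takes the class of a loop on a cycle.
-/

universe u

open CategoryTheory Opposite

namespace Vale.Agent.P259.Elem

open Vale.Agent.P259.Cat

variable {C D : Type u} [SmallCategory C] [SmallCategory D] {σ : Susp C D} {p : D}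
  (hF : σ.HFill p) {X : Psh C} (hX : σ.Glues X)

/-- The abelian group of loop classes at a point. -/
@[reducible]
noncomputable def loopGroup (x0 : X.obj (op σ.pt))
    (hcomm : ∀ u v : (⟨x0⟩ : Pi hF hX) ⟶ ⟨x0⟩, u ≫ v = v ≫ u) :
    CommGroup ((⟨x0⟩ : Pi hF hX) ⟶ ⟨x0⟩) :=
  { CategoryTheory.Groupoid.vertexGroup (⟨x0⟩ : Pi hF hX) with mul_comm := hcomm }

variable {x0 : X.obj (op σ.pt)} (P : ∀ a : X.obj (op σ.pt), Edge σ p X x0 a)

/-- An edge, brought to the base point along chosen paths. -/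
noncomputable def loopVal {a b : X.obj (op σ.pt)} (w : Edge σ p X a b) :
    (⟨x0⟩ : Pi hF hX) ⟶ ⟨x0⟩ :=
  (P a).arrow hF hX ≫ w.arrow hF hX ≫ inv ((P b).arrow hF hX)

theorem loopVal_parallel {a b a' b' : X.obj (op σ.pt)} (w : Edge σ p X a b)
    (w' : Edge σ p X a' b') {U : C} (z : X.obj (op U)) (h h' : σ.sus.obj p ⟶ U)
    (hw : res X h z = w.1) (hw' : res X h' z = w'.1)
    (hs : σ.src p ≫ h = σ.src p ≫ h') (ht : σ.tgt p ≫ h = σ.tgt p ≫ h') :
    loopVal hF hX P w = loopVal hF hX P w' := by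
  obtain rfl : a = a' := by
    rw [← w.2.1, ← w'.2.1, ← hw, ← hw', ← res_comp, ← res_comp, hs]
  obtain rfl : b = b' := by
    rw [← w.2.2, ← w'.2.2, ← hw, ← hw', ← res_comp, ← res_comp, ht]
  rw [loopVal, loopVal, show w.arrow hF hX = w'.arrow hF hX from
    cls_eq_of_parallel hF w w' z h h' hw hw' hs ht]

theorem loopVal_comp {a b c : X.obj (op σ.pt)} (w : Edge σ p X a b) (w' : Edge σ p X b c) :
    loopVal hF hX P (w.comp hF hX w') = loopVal hF hX P w ≫ loopVal hF hX P w' := by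
  simp only [loopVal, Edge.arrow_comp, Category.assoc, IsIso.inv_hom_id_assoc]

theorem loopVal_id (a : X.obj (op σ.pt)) : loopVal hF hX P (idEdge hF a) = 𝟙 _ := by
  show (P a).arrow hF hX ≫ 𝟙 _ ≫ inv ((P a).arrow hF hX) = 𝟙 _
  simp

/-- The edge of a map of elements. -/
noncomputable def stepEdge {S T : C} (g : S ⟶ T) (x : X.obj (op T)) :
    Edge σ p X (res X (σ.v0 T) x) (res X (σ.v0 S ≫ g) x) :=
  ⟨res X (hF.edges T (σ.v0 T) (σ.v0 S ≫ g)).choose x,
    by rw [← res_comp, (hF.edges T (σ.v0 T) (σ.v0 S ≫ g)).choose_spec.1],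
    by rw [← res_comp, (hF.edges T (σ.v0 T) (σ.v0 S ≫ g)).choose_spec.2]⟩

theorem loopVal_step_comp {R S T : C} (g : S ⟶ T) (k : R ⟶ S) (x : X.obj (op T)) :
    loopVal hF hX P (stepEdge hF (k ≫ g) x)
      = loopVal hF hX P (stepEdge hF g x) ≫ loopVal hF hX P (stepEdge hF k (res X g x)) := by
  set hg := (hF.edges T (σ.v0 T) (σ.v0 S ≫ g)).choose with hgdef
  set hk := (hF.edges S (σ.v0 S) (σ.v0 R ≫ k)).choose with hkdef
  set hgk := (hF.edges T (σ.v0 T) (σ.v0 R ≫ k ≫ g)).choose with hgkdef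
  obtain ⟨g1, g2⟩ := (hF.edges T (σ.v0 T) (σ.v0 S ≫ g)).choose_spec
  obtain ⟨k1, k2⟩ := (hF.edges S (σ.v0 S) (σ.v0 R ≫ k)).choose_spec
  obtain ⟨gk1, gk2⟩ := (hF.edges T (σ.v0 T) (σ.v0 R ≫ k ≫ g)).choose_spec
  rw [← hgdef] at g1 g2
  rw [← hkdef] at k1 k2
  rw [← hgkdef] at gk1 gk2
  let w' : Edge σ p X (res X (σ.v0 S ≫ g) x) (res X ((σ.v0 R ≫ k) ≫ g) x) :=
    ⟨res X (hk ≫ g) x, by rw [← res_comp, ← Category.assoc, k1],
      by rw [← res_comp, ← Category.assoc, k2]⟩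
  have e1 : loopVal hF hX P (stepEdge hF k (res X g x)) = loopVal hF hX P w' :=
    loopVal_parallel hF hX P _ _ (res X g x) hk hk rfl (res_comp X _ _ _).symm rfl rfl
  rw [e1, ← loopVal_comp]
  have d : σ.tgt p ≫ hg = σ.v0 (σ.sus.obj p) ≫ hk ≫ g := by
    rw [g2, σ.v0_sus, ← Category.assoc, k1]
  obtain ⟨m, m1, m2⟩ := σ.existsDesc hg (hk ≫ g) d
  have hm : res X m x = (stepEdge hF g x).pairUp hX w' :=
    Edge.res_pairUp hX _ _ x m (by rw [m1]; rfl) (by rw [m2])
  refine loopVal_parallel hF hX P _ _ x hgk (hF.cop ≫ m) rfl (by rw [res_comp, hm]; rfl) ?_ ?_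
  · rw [gk1, ← Category.assoc, hF.src_cop, Category.assoc, m1, g1]
  · rw [gk2, ← Category.assoc (σ.tgt p) hF.cop, hF.tgt_cop, Category.assoc, m2,
      ← Category.assoc (σ.tgt p) hk, k2,
      Category.assoc]

include hX in
/-- **Loops are trivial** when they commute and the first homology vanishes. -/
theorem loop_eq_id (P : ∀ a : X.obj (op σ.pt), Edge σ p X x0 a)
    (hcomm : ∀ u v : (⟨x0⟩ : Pi hF hX) ⟶ ⟨x0⟩, u ≫ v = v ≫ u)
    (hH : (chains X).Exact 2) (w : Edge σ p X x0 x0) :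
    w.arrow hF hX = 𝟙 (⟨x0⟩ : Pi hF hX) := by
  let G := (⟨x0⟩ : Pi hF hX) ⟶ ⟨x0⟩
  letI : CommGroup G := loopGroup hF hX x0 hcomm
  let val : ∀ (b b' : Cᵒᵖ), X.obj b → (b ⟶ b') → Additive G := fun b b' x g =>
    Additive.ofMul (loopVal hF hX P (stepEdge hF g.unop (T := b.unop) x))
  let χ : CX 2 X →+ Additive G := lin fun s => val s.1 s.2.2.1 s.2.1 s.2.2.2.1
  have hχ : ∀ (b b' : Cᵒᵖ) (x : X.obj b) (g : b ⟶ b'),
      χ (consL X b x (consL (hom b) b' g (Finsupp.single (Seq.nil _) 1))) = val b b' x g := by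
    intro b b' x g
    rw [consL_single, consL_single]
    exact (lin_single _ _ _).trans (one_smul _ _)
  have hχ0 : ∀ y, χ (bd 2 X y) = 0 := by
    intro y
    refine hom_ext (f := χ.comp (bd 2 X)) (g := 0) (fun s => ?_) y
    obtain ⟨b, x, r, rfl⟩ := Seq.exists_cons s
    obtain ⟨b', f, r', rfl⟩ := Seq.exists_cons r
    obtain ⟨b'', g, r'', rfl⟩ := Seq.exists_cons r'
    obtain rfl : r'' = Seq.nil _ := rfl
    rw [AddMonoidHom.comp_apply, ← consL_single, ← consL_single, ← consL_single, bd_succ_cons,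
      bd_succ_cons, bd_zero_cons, mapL_consL, mapL_consL, mapL_single, map_sub, map_sub, map_sub,
      AddMonoidHom.zero_apply]
    show χ (consL X b' (X.map f x) (consL (hom b') b'' g (Finsupp.single (Seq.nil _) 1)))
        - (χ (consL X b x (consL (hom b) b'' (f ≫ g) (Finsupp.single (Seq.nil _) 1)))
          - χ (consL X b x (consL (hom b) b' f (Finsupp.single (Seq.nil _) 1)))) = 0
    rw [hχ, hχ, hχ]
    have h := loopVal_step_comp hF hX P f.unop g.unop (T := b.unop) x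
    show Additive.ofMul (loopVal hF hX P (stepEdge hF g.unop (T := b'.unop) (res X f.unop x)))
      - (Additive.ofMul (loopVal hF hX P (stepEdge hF (g.unop ≫ f.unop) (T := b.unop) x))
        - Additive.ofMul (loopVal hF hX P (stepEdge hF f.unop (T := b.unop) x))) = 0
    rw [h, show ∀ u v : G, Additive.ofMul (u ≫ v) = Additive.ofMul u + Additive.ofMul v from
      fun _ _ => rfl]
    abel
  let gen (t : σ.pt ⟶ σ.sus.obj p) : CX 2 X := consL X (op (σ.sus.obj p)) w.1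
    (consL (hom (op (σ.sus.obj p))) (op σ.pt) t.op (Finsupp.single (Seq.nil _) 1))
  have hbd : ∀ t, res X t w.1 = x0 → bd 1 X (gen t)
      = consL X (op σ.pt) x0 (Finsupp.single (Seq.nil _) 1)
        - consL X (op (σ.sus.obj p)) w.1 (Finsupp.single (Seq.nil _) 1) := by
    intro t ht
    rw [bd_succ_cons, mapL_consL, bd_zero_cons, mapL_single]
    show consL X (op σ.pt) (res X t w.1) (Finsupp.single (Seq.nil _) 1) - _ = _
    rw [ht]
    rfl
  obtain ⟨y, hy⟩ := hH (gen (σ.tgt p) - gen (σ.src p)) (by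
    show bd 1 X _ = 0
    rw [map_sub, hbd _ w.2.2, hbd _ w.2.1, sub_self])
  have h := hχ0 y
  rw [show bd 2 X y = _ from hy, map_sub, sub_eq_zero, hχ, hχ] at h
  have h' : loopVal hF hX P (stepEdge hF (σ.tgt p) w.1)
      = loopVal hF hX P (stepEdge hF (σ.src p) w.1) := h
  obtain ⟨t1, t2⟩ := (hF.edges _ (σ.v0 (σ.sus.obj p)) (σ.v0 σ.pt ≫ σ.tgt p)).choose_spec
  obtain ⟨s1, s2⟩ := (hF.edges _ (σ.v0 (σ.sus.obj p)) (σ.v0 σ.pt ≫ σ.src p)).choose_spec
  rw [loopVal_parallel hF hX P (stepEdge hF (σ.tgt p) w.1) w w.1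
      (hF.edges _ (σ.v0 _) (σ.v0 σ.pt ≫ σ.tgt p)).choose (𝟙 _) rfl (res_id X _)
      (by rw [t1, Category.comp_id, σ.v0_sus])
      (by rw [t2, Category.comp_id, σ.v0_pt, Category.id_comp]),
    loopVal_parallel hF hX P (stepEdge hF (σ.src p) w.1) (idEdge hF x0) w.1
      (hF.edges _ (σ.v0 _) (σ.v0 σ.pt ≫ σ.src p)).choose (hF.deg ≫ σ.src p) rfl
      (by rw [res_comp, w.2.1]; rfl)
      (by rw [s1, ← Category.assoc, hF.src_deg, Category.id_comp, σ.v0_sus])
      (by rw [s2, ← Category.assoc, hF.tgt_deg, σ.v0_pt, Category.id_comp]),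
    loopVal_id] at h'
  have h'' : (P x0).arrow hF hX ≫ w.arrow hF hX ≫ inv ((P x0).arrow hF hX) = 𝟙 _ := h'
  rw [← Category.assoc, IsIso.comp_inv_eq, Category.id_comp] at h''
  exact (cancel_epi ((P x0).arrow hF hX)).1 (h''.trans (Category.comp_id _).symm)

include hX in
/-- Parallel edges are homotopic. -/
theorem cls_eq_of_exact (hC : ∀ a b, Nonempty (Edge σ p X a b))
    (hcomm : ∀ (a : X.obj (op σ.pt)) (u v : (⟨a⟩ : Pi hF hX) ⟶ ⟨a⟩), u ≫ v = v ≫ u)
    (hH : (chains X).Exact 2) {a b : X.obj (op σ.pt)} (u v : Edge σ p X a b) : u.cls = v.cls := by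
  have h := loop_eq_id hF hX (fun c => (hC a c).some) (hcomm a) hH (u.comp hF hX (v.rev hF))
  rw [Edge.arrow_comp] at h
  have hv : v.arrow hF hX ≫ (v.rev hF).arrow hF hX = 𝟙 _ := v.comp_rev hF hX
  exact (cancel_mono ((v.rev hF).arrow hF hX)).1 (h.trans hv.symm)

end Vale.Agent.P259.Elem
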