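import Vale.Agent.P259.Elem.Pi

/-!
# P259, module C: loops of the hom-models commute

The interchange argument, run inside hom-models of representables, where all parallel edges are
homotopic.  No functoriality of whiskering is used: one square for commutation, and conjugation
by moving points and mapping shapes.
-/

universe u

open CategoryTheory Opposite

namespace Vale.Agent.P259.Elem

open Vale.Agent.P259.Cat

variable {C D D' : Type u} [SmallCategory C] [SmallCategory D] [SmallCategory D']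
  {σ : Susp C D} {τ : Susp D D'} {q : D'}

/-- Hom-models of representables are connected and have unique classes of edges. -/
structure Susp.YonThin (σ : Susp C D) (τ : Susp D D') (q : D') : Prop where
  exists_edge : ∀ (U : C) (s t : (yon U).obj (op σ.pt)) (P Q : (σ.homPsh (yon U) s t).obj (op τ.pt)),
    Nonempty (Edge τ q (σ.homPsh (yon U) s t) P Q)
  cls_eq : ∀ (U : C) (s t : (yon U).obj (op σ.pt)) (P Q : (σ.homPsh (yon U) s t).obj (op τ.pt))
    (u v : Edge τ q (σ.homPsh (yon U) s t) P Q), u.cls = v.cls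
  glues : ∀ (U : C) (s t : (yon U).obj (op σ.pt)), τ.Glues (σ.homPsh (yon U) s t)

variable (hT : σ.YonThin τ q) (hG : τ.HFill q) {X : Psh C} {a b : X.obj (op σ.pt)}
  (hY : τ.Glues (σ.homPsh X a b))

/-- An element with two marked points lying over `a` and `b`. -/
structure Marked (σ : Susp C D) (X : Psh C) (a b : X.obj (op σ.pt)) : Type u where
  U : C
  z : X.obj (op U)
  s : σ.pt ⟶ U
  t : σ.pt ⟶ U
  hs : res X s z = a
  ht : res X t z = b

namespace Marked

/-- The map of hom-models given by an element. -/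
def push (M : Marked σ X a b) : ShHom (σ.homPsh (yon M.U) M.s M.t) (σ.homPsh X a b) :=
  ⟨fun S h => ⟨res X h.1 M.z,
      by rw [← res_comp]; exact (congrArg (fun w => res X w M.z) h.2.1).trans M.hs,
      by rw [← res_comp]; exact (congrArg (fun w => res X w M.z) h.2.2).trans M.ht⟩,
    fun g h => Subtype.ext (res_comp X _ _ _)⟩

/-- A map of marked elements. -/
structure Hom (M M' : Marked σ X a b) : Type u where
  n : M.U ⟶ M'.U
  s_n : M.s ≫ n = M'.s
  t_n : M.t ≫ n = M'.t
  res_n : res X n M'.z = M.z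

/-- The induced map of hom-models. -/
def Hom.post {M M' : Marked σ X a b} (N : Hom M M') :
    ShHom (σ.homPsh (yon M.U) M.s M.t) (σ.homPsh (yon M'.U) M'.s M'.t) :=
  ⟨fun S h => ⟨h.1 ≫ N.n,
      (Category.assoc _ _ _).symm.trans ((congrArg (· ≫ N.n) h.2.1).trans N.s_n),
      (Category.assoc _ _ _).symm.trans ((congrArg (· ≫ N.n) h.2.2).trans N.t_n)⟩,
    fun g h => Subtype.ext (Category.assoc _ _ _)⟩

/-- Points of the hom-model of a marked element. -/
abbrev Pt (τ : Susp D D') (M : Marked σ X a b) : Type u :=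
  (σ.homPsh (yon M.U) M.s M.t).obj (op τ.pt)

/-- The image of a point. -/
abbrev img (M : Marked σ X a b) (P : Pt τ M) : (σ.homPsh X a b).obj (op τ.pt) :=
  M.push.app _ P

theorem img_post {M M' : Marked σ X a b} (N : Hom M M') (P : Pt τ M) :
    M'.img (N.post.app (op τ.pt) P) = M.img P := by
  refine Subtype.ext ?_
  show res X (P.1 ≫ N.n) M'.z = res X P.1 M.z
  rw [res_comp, N.res_n]

/-- The arrow between the images of two points. -/
noncomputable def arr (M : Marked σ X a b) (P Q : Pt τ M) {P' Q' : (σ.homPsh X a b).obj (op τ.pt)}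
    (hP : M.img P = P') (hQ : M.img Q = Q') : (⟨P'⟩ : Pi hG hY) ⟶ ⟨Q'⟩ :=
  ((hT.exists_edge M.U M.s M.t P Q).some.mapTo M.push hP hQ).arrow hG hY

theorem arr_eq (M : Marked σ X a b) {P Q : Pt τ M}
    {P' Q' : (σ.homPsh X a b).obj (op τ.pt)} (hP : M.img P = P') (hQ : M.img Q = Q')
    (e : Edge τ q (σ.homPsh (yon M.U) M.s M.t) P Q) :
    arr hT hG hY M P Q hP hQ = (e.mapTo M.push hP hQ).arrow hG hY :=
  Edge.mapTo_htp M.push hP hQ (hT.cls_eq _ _ _ _ _ _ e)

theorem arr_comp (M : Marked σ X a b) {P Q R : Pt τ M}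
    {P' Q' R' : (σ.homPsh X a b).obj (op τ.pt)} (hP : M.img P = P') (hQ : M.img Q = Q')
    (hR : M.img R = R') :
    arr hT hG hY M P Q hP hQ ≫ arr hT hG hY M Q R hQ hR = arr hT hG hY M P R hP hR := by
  obtain ⟨e⟩ := hT.exists_edge M.U M.s M.t P Q
  obtain ⟨e'⟩ := hT.exists_edge M.U M.s M.t Q R
  rw [arr_eq hT hG hY M hP hQ e, arr_eq hT hG hY M hQ hR e',
    arr_eq hT hG hY M hP hR (e.comp hG (hT.glues _ _ _) e'),
    Edge.mapTo_comp hG (hT.glues _ _ _) hY M.push hP hQ hR e e', Edge.arrow_comp]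

theorem arr_post {M M' : Marked σ X a b} (N : Hom M M') {P Q : Pt τ M}
    {P' Q' : (σ.homPsh X a b).obj (op τ.pt)} (hP : M.img P = P') (hQ : M.img Q = Q') :
    arr hT hG hY M' (N.post.app (op τ.pt) P) (N.post.app (op τ.pt) Q)
      ((img_post N P).trans hP) ((img_post N Q).trans hQ) = arr hT hG hY M P Q hP hQ := by
  obtain ⟨e⟩ := hT.exists_edge M.U M.s M.t P Q
  rw [arr_eq hT hG hY M' _ _ (e.mapTo N.post rfl rfl), arr_eq hT hG hY M hP hQ e]
  refine congrArg Edge.cls (Subtype.ext (Subtype.ext ?_))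
  show res X (e.1.1 ≫ N.n) M'.z = res X e.1.1 M.z
  rw [res_comp, N.res_n]

/-- Equal points give equal arrows. -/
theorem arr_congr (M : Marked σ X a b) {P Q P₁ Q₁ : Pt τ M}
    {P' Q' : (σ.homPsh X a b).obj (op τ.pt)} (eP : P = P₁) (eQ : Q = Q₁) (hP : M.img P = P')
    (hQ : M.img Q = Q') (hP₁ : M.img P₁ = P') (hQ₁ : M.img Q₁ = Q') :
    arr hT hG hY M P Q hP hQ = arr hT hG hY M P₁ Q₁ hP₁ hQ₁ := by
  subst eP eQ
  rfl

end Marked

/-- A shape: two marked elements and two maps of them; it turns a point of the first into a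
loop. -/
structure Shape (σ : Susp C D) (X : Psh C) (a b : X.obj (op σ.pt)) : Type u where
  A : Marked σ X a b
  B : Marked σ X a b
  m0 : Marked.Hom A B
  m1 : Marked.Hom A B

namespace Shape

/-- The loop of a point. -/
noncomputable def op' (S : Shape σ X a b) (P : Marked.Pt τ S.A) {g : (σ.homPsh X a b).obj (op τ.pt)}
    (hP : S.A.img P = g) : (⟨g⟩ : Pi hG hY) ⟶ ⟨g⟩ :=
  Marked.arr hT hG hY S.B (S.m0.post.app (op τ.pt) P) (S.m1.post.app (op τ.pt) P)
    ((Marked.img_post S.m0 P).trans hP) ((Marked.img_post S.m1 P).trans hP)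

theorem op'_move (S : Shape σ X a b) (P Q : Marked.Pt τ S.A)
    {g g' : (σ.homPsh X a b).obj (op τ.pt)} (hP : S.A.img P = g) (hQ : S.A.img Q = g') :
    S.op' hT hG hY P hP ≫ Marked.arr hT hG hY S.A P Q hP hQ
      = Marked.arr hT hG hY S.A P Q hP hQ ≫ S.op' hT hG hY Q hQ := by
  conv_lhs => rw [← Marked.arr_post hT hG hY S.m1 hP hQ, op', Marked.arr_comp]
  conv_rhs => rw [← Marked.arr_post hT hG hY S.m0 hP hQ, op', Marked.arr_comp]

theorem op'_map {S S' : Shape σ X a b} (NA : Marked.Hom S.A S'.A) (NB : Marked.Hom S.B S'.B)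
    (h0 : S.m0.n ≫ NB.n = NA.n ≫ S'.m0.n) (h1 : S.m1.n ≫ NB.n = NA.n ≫ S'.m1.n)
    (P : Marked.Pt τ S.A) {g : (σ.homPsh X a b).obj (op τ.pt)} (hP : S.A.img P = g) :
    S.op' hT hG hY P hP
      = S'.op' hT hG hY (NA.post.app (op τ.pt) P) ((Marked.img_post NA P).trans hP) := by
  rw [op', op', ← Marked.arr_post hT hG hY NB]
  refine Marked.arr_congr hT hG hY _ (Subtype.ext ?_) (Subtype.ext ?_) _ _ _ _
  · show (P.1 ≫ S.m0.n) ≫ NB.n = (P.1 ≫ NA.n) ≫ S'.m0.n
    rw [Category.assoc, Category.assoc, h0]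
  · show (P.1 ≫ S.m1.n) ≫ NB.n = (P.1 ≫ NA.n) ≫ S'.m1.n
    rw [Category.assoc, Category.assoc, h1]

end Shape

variable (hF : σ.HFill τ.pt) (hX : σ.Glues X)
variable (f : (σ.homPsh X a b).obj (op τ.pt))

/-- The element of a loop. -/
abbrev loopMarked {f : (σ.homPsh X a b).obj (op τ.pt)} (α : Edge τ q (σ.homPsh X a b) f f) :
    Marked σ X a b :=
  ⟨σ.sus.obj (τ.sus.obj q), α.1.1, σ.src _, σ.tgt _, α.1.2.1, α.1.2.2⟩

/-- The element of a point. -/
abbrev pointMarked : Marked σ X a b :=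
  ⟨σ.sus.obj τ.pt, f.1, σ.src _, σ.tgt _, f.2.1, f.2.2⟩

/-- The side of the element of a loop. -/
def sideHom {f : (σ.homPsh X a b).obj (op τ.pt)} (α : Edge τ q (σ.homPsh X a b) f f) (e : Bool) :
    Marked.Hom (pointMarked f) (loopMarked α) :=
  ⟨σ.sus.map (if e then τ.tgt q else τ.src q), σ.src_map _, σ.tgt_map _, by
    cases e
    · exact congrArg Subtype.val α.2.1
    · exact congrArg Subtype.val α.2.2⟩

/-- The tautological shape of a loop. -/
abbrev baseShape {f : (σ.homPsh X a b).obj (op τ.pt)} (α : Edge τ q (σ.homPsh X a b) f f) :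
    Shape σ X a b :=
  ⟨pointMarked f, loopMarked α, sideHom α false, sideHom α true⟩

/-- The tautological point. -/
def tautPt : Marked.Pt τ (pointMarked f) :=
  ⟨𝟙 _, Category.comp_id _, Category.comp_id _⟩

theorem tautPt_img : (pointMarked f).img (tautPt f) = f :=
  Subtype.ext (res_id X f.1)

theorem baseShape_op {f : (σ.homPsh X a b).obj (op τ.pt)} (α : Edge τ q (σ.homPsh X a b) f f) :
    (baseShape α).op' hT hG hY (tautPt f) (tautPt_img f) = α.arrow hG hY := by
  let e : Edge τ q (σ.homPsh (yon (loopMarked α).U) (σ.src _) (σ.tgt _))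
      ((sideHom α false).post.app (op τ.pt) (tautPt f))
      ((sideHom α true).post.app (op τ.pt) (tautPt f)) :=
    ⟨⟨𝟙 _, Category.comp_id _, Category.comp_id _⟩,
      Subtype.ext (by
        show σ.sus.map (τ.src q) ≫ 𝟙 _ = 𝟙 _ ≫ σ.sus.map (τ.src q)
        rw [Category.comp_id, Category.id_comp]),
      Subtype.ext (by
        show σ.sus.map (τ.tgt q) ≫ 𝟙 _ = 𝟙 _ ≫ σ.sus.map (τ.tgt q)
        rw [Category.comp_id, Category.id_comp])⟩
  rw [Shape.op', Marked.arr_eq hT hG hY _ _ _ e]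
  exact congrArg Edge.cls (Subtype.ext (Subtype.ext (res_id X α.1.1)))

end Vale.Agent.P259.Elem
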