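import Vale.Agent.P259.Elem.Fibrewise

/-!
# P259, module C: the abstract suspension structure

What section 1 of the proof uses of a globular extension `C`: a point, an initial vertex of every
object, suspensions of the objects of the extension `D` one level up, and the sums `Σ S + T`.
-/

universe u

open CategoryTheory Opposite

namespace Vale.Agent.P259.Elem

open Vale.Agent.P259.Cat

/-- A presheaf, as a covariant functor on the opposite category. -/
abbrev Psh (C : Type u) [SmallCategory C] : Type (u + 1) := Sh Cᵒᵖ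

/-- Restriction along a map. -/
abbrev res {C : Type u} [SmallCategory C] (X : Psh C) {S T : C} (f : S ⟶ T)
    (x : X.obj (op T)) : X.obj (op S) :=
  X.map f.op x

theorem res_id {C : Type u} [SmallCategory C] (X : Psh C) {S : C} (x : X.obj (op S)) :
    res X (𝟙 S) x = x :=
  X.map_id _ x

theorem res_comp {C : Type u} [SmallCategory C] (X : Psh C) {S T U : C} (f : S ⟶ T) (g : T ⟶ U)
    (x : X.obj (op U)) : res X (f ≫ g) x = res X f (res X g x) :=
  X.map_comp g.op f.op x

/-- The representable presheaf. -/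
abbrev yon {C : Type u} [SmallCategory C] (U : C) : Psh C where
  obj S := S.unop ⟶ U
  map f g := f.unop ≫ g
  map_id _ _ := Category.id_comp _
  map_comp f g x := Category.assoc _ _ _

/-- Suspension data between a category `C` and the category `D` one level up. -/
structure Susp (C D : Type u) [SmallCategory C] [SmallCategory D] : Type u where
  pt : C
  v0 : ∀ T : C, pt ⟶ T
  v0_pt : v0 pt = 𝟙 pt
  sus : D ⥤ C
  src : ∀ S : D, pt ⟶ sus.obj S
  tgt : ∀ S : D, pt ⟶ sus.obj S
  src_map : ∀ {S S' : D} (f : S ⟶ S'), src S ≫ sus.map f = src S'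
  tgt_map : ∀ {S S' : D} (f : S ⟶ S'), tgt S ≫ sus.map f = tgt S'
  add : D → C → C
  inl : ∀ S T, sus.obj S ⟶ add S T
  inr : ∀ S T, T ⟶ add S T
  glue : ∀ S T, tgt S ≫ inl S T = v0 T ≫ inr S T
  v0_add : ∀ S T, v0 (add S T) = src S ≫ inl S T
  v0_sus : ∀ S, v0 (sus.obj S) = src S
  existsDesc : ∀ {S T U} (h : sus.obj S ⟶ U) (g : T ⟶ U), tgt S ≫ h = v0 T ≫ g →
    ∃ k : add S T ⟶ U, inl S T ≫ k = h ∧ inr S T ≫ k = g
  descUnique : ∀ {S T U} (k k' : add S T ⟶ U), inl S T ≫ k = inl S T ≫ k' →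
    inr S T ≫ k = inr S T ≫ k' → k = k'

namespace Susp

variable {C D : Type u} [SmallCategory C] [SmallCategory D] (σ : Susp C D)

/-- The two halves glue uniquely in `X`. -/
def Glues (X : Psh C) : Prop :=
  ∀ (S : D) (T : C) (s : X.obj (op (σ.sus.obj S))) (x : X.obj (op T)),
    res X (σ.tgt S) s = res X (σ.v0 T) x →
      ∃! z, res X (σ.inl S T) z = s ∧ res X (σ.inr S T) z = x

/-- The presheaf of maps between two points. -/
abbrev homPsh (X : Psh C) (a b : X.obj (op σ.pt)) : Psh D where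
  obj S := {s : X.obj (op (σ.sus.obj S.unop)) //
    res X (σ.src S.unop) s = a ∧ res X (σ.tgt S.unop) s = b}
  map f s := ⟨res X (σ.sus.map f.unop) s.1,
    by rw [← res_comp, σ.src_map]; exact s.2.1,
    by rw [← res_comp, σ.tgt_map]; exact s.2.2⟩
  map_id S s := Subtype.ext (by
    show res X (σ.sus.map (𝟙 S.unop)) s.1 = s.1
    rw [σ.sus.map_id]
    exact res_id X s.1)
  map_comp f g s := Subtype.ext (by
    show res X (σ.sus.map (g.unop ≫ f.unop)) s.1 = _
    rw [σ.sus.map_comp]
    exact res_comp X _ _ s.1)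

/-- An object with an element based at `x0`; maps preserve the initial vertex. -/
@[ext]
structure Pointed (X : Psh C) (x0 : X.obj (op σ.pt)) : Type u where
  U : C
  y : X.obj (op U)
  based : res X (σ.v0 U) y = x0

variable {σ} {X : Psh C} {x0 : X.obj (op σ.pt)}

instance : Category.{u} (σ.Pointed X x0) where
  Hom a b := {k : a.U ⟶ b.U // σ.v0 a.U ≫ k = σ.v0 b.U ∧ res X k b.y = a.y}
  id a := ⟨𝟙 _, Category.comp_id _, res_id X _⟩
  comp f g := ⟨f.1 ≫ g.1, by rw [← Category.assoc, f.2.1, g.2.1],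
    by rw [res_comp, g.2.2, f.2.2]⟩
  id_comp f := Subtype.ext (Category.id_comp _)
  comp_id f := Subtype.ext (Category.comp_id _)
  assoc f g h := Subtype.ext (Category.assoc _ _ _)

/-- The point is initial among pointed objects. -/
def pointedInitial (X : Psh C) (x0 : X.obj (op σ.pt)) :
    Limits.IsInitial (⟨σ.pt, x0, by rw [σ.v0_pt]; exact res_id X x0⟩ : σ.Pointed X x0) :=
  Limits.IsInitial.ofUniqueHom
    (fun b => ⟨σ.v0 b.U, (congrArg (· ≫ σ.v0 b.U) σ.v0_pt).trans (Category.id_comp _), b.based⟩)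
    fun b k => Subtype.ext
      (((Category.id_comp k.1).symm.trans (congrArg (· ≫ k.1) σ.v0_pt.symm)).trans k.2.1)

/-- `(T, x) , (U, y) ↦` maps `g : T ⟶ U` with `g^* y = x`. -/
abbrev below (X : Psh C) (x0 : X.obj (op σ.pt)) : Prof (El X) (σ.Pointed X x0) where
  W e :=
    { obj := fun b => {g : e.pt.unop ⟶ b.U // res X g b.y = e.elt}
      map := fun k g => ⟨g.1 ≫ k.1, by rw [res_comp, k.2.2]; exact g.2⟩
      map_id := fun b g => Subtype.ext (Category.comp_id _)
      map_comp := fun f g x => Subtype.ext (Category.assoc _ _ _).symm }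
  act f := ⟨fun b g => ⟨f.1.unop ≫ g.1, by rw [res_comp, g.2]; exact f.2⟩,
    fun k g => Subtype.ext (Category.assoc _ _ _).symm⟩
  act_id e b g := Subtype.ext (Category.id_comp _)
  act_comp f g b x := Subtype.ext (Category.assoc _ _ _)

/-- Identities are universal. -/
def belowUniv (b : σ.Pointed X x0) : Univ ((below X x0).flip b) where
  pt := ⟨op b.U, b.y⟩
  elt := ⟨𝟙 _, res_id X _⟩
  inv e g := ⟨g.1.op, g.2⟩
  map_inv e g := Subtype.ext (Category.comp_id g.1)
  inv_map f := Subtype.ext (Quiver.Hom.unop_inj (Category.comp_id f.1.unop))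

variable (e : El X) (c : X.obj (op σ.pt))

/-- The fibre over `e` against the maps from `x0` to the first vertex `c` of `e`. -/
abbrev fibre (x0 c : X.obj (op σ.pt)) :
    Prof (El ((below X x0).W e)) (El (σ.homPsh X x0 c)) where
  W b :=
    { obj := fun a => {h : σ.sus.obj a.pt.unop ⟶ b.pt.U //
        σ.src a.pt.unop ≫ h = σ.v0 b.pt.U ∧
        σ.tgt a.pt.unop ≫ h = σ.v0 e.pt.unop ≫ b.elt.1 ∧ res X h b.pt.y = a.elt.1}
      map := fun {a a'} f h => ⟨σ.sus.map f.1.unop ≫ h.1,
        by rw [← Category.assoc, σ.src_map]; exact h.2.1,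
        by rw [← Category.assoc, σ.tgt_map]; exact h.2.2.1,
        by rw [res_comp, h.2.2.2]; exact congrArg Subtype.val f.2⟩
      map_id := fun a h => Subtype.ext (by
        show σ.sus.map (𝟙 a.pt.unop) ≫ h.1 = h.1
        rw [σ.sus.map_id, Category.id_comp])
      map_comp := fun f g h => Subtype.ext (by
        show σ.sus.map (g.1.unop ≫ f.1.unop) ≫ h.1 = _
        rw [σ.sus.map_comp, Category.assoc]) }
  act {b b'} f :=
    ⟨fun a h => ⟨h.1 ≫ f.1.1,
      by rw [← Category.assoc, h.2.1]; exact f.1.2.1,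
      by rw [← Category.assoc, h.2.2.1, Category.assoc]
         exact congrArg (fun w => σ.v0 e.pt.unop ≫ w) (congrArg Subtype.val f.2),
      by rw [res_comp, f.1.2.2]; exact h.2.2.2⟩,
    fun g h => Subtype.ext (Category.assoc _ _ _)⟩
  act_id b a h := Subtype.ext (Category.comp_id _)
  act_comp f g a h := Subtype.ext (Category.assoc _ _ _).symm

theorem fibre_flip_glue (hX : σ.Glues X) (hc : res X (σ.v0 e.pt.unop) e.elt = c)
    (a : El (σ.homPsh X x0 c)) : Nonempty (Univ ((fibre e x0 c).flip a)) := by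
  obtain ⟨z, ⟨hz1, hz2⟩, -⟩ := hX a.pt.unop e.pt.unop a.elt.1 e.elt (a.elt.2.2.trans hc.symm)
  let pz : σ.Pointed X x0 := ⟨σ.add a.pt.unop e.pt.unop, z, by
    rw [σ.v0_add, res_comp, hz1]; exact a.elt.2.1⟩
  refine ⟨⟨⟨pz, ⟨σ.inr _ _, hz2⟩⟩, ⟨σ.inl _ _, (σ.v0_add _ _).symm, σ.glue _ _, hz1⟩,
    fun b h => ⟨⟨(σ.existsDesc h.1 b.elt.1 h.2.2.1).choose, ?_, ?_⟩, ?_⟩, ?_, ?_⟩⟩
  · obtain ⟨h1, -⟩ := (σ.existsDesc h.1 b.elt.1 h.2.2.1).choose_spec
    show σ.v0 (σ.add _ _) ≫ _ = _
    rw [σ.v0_add, Category.assoc, h1]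
    exact h.2.1
  · obtain ⟨h1, h2⟩ := (σ.existsDesc h.1 b.elt.1 h.2.2.1).choose_spec
    refine (hX a.pt.unop e.pt.unop a.elt.1 e.elt (a.elt.2.2.trans hc.symm)).unique ⟨?_, ?_⟩ ⟨hz1, hz2⟩
    · rw [← res_comp, h1]; exact h.2.2.2
    · rw [← res_comp, h2]; exact b.elt.2
  · exact Subtype.ext (σ.existsDesc h.1 b.elt.1 h.2.2.1).choose_spec.2
  · intro b h
    exact Subtype.ext (σ.existsDesc h.1 b.elt.1 h.2.2.1).choose_spec.1
  · intro b f
    refine Subtype.ext (Subtype.ext ?_)
    have key : ∀ (h : σ.sus.obj a.pt.unop ⟶ b.pt.U)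
        (hh : σ.tgt a.pt.unop ≫ h = σ.v0 e.pt.unop ≫ b.elt.1),
        σ.inl a.pt.unop e.pt.unop ≫ f.1.1 = h → (σ.existsDesc h b.elt.1 hh).choose = f.1.1 :=
      fun h hh he => σ.descUnique _ _ ((σ.existsDesc h b.elt.1 hh).choose_spec.1.trans he.symm)
        ((σ.existsDesc h b.elt.1 hh).choose_spec.2.trans (congrArg Subtype.val f.2).symm)
    exact key (σ.inl a.pt.unop e.pt.unop ≫ f.1.1) (by
      rw [← Category.assoc, σ.glue, Category.assoc]
      exact congrArg (fun w => σ.v0 e.pt.unop ≫ w) (congrArg Subtype.val f.2)) rfl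

/-- Forgetting down to maps into a representable. -/
def fibreToHom (b : El ((below X x0).W e)) :
    FHom (El.proj (σ.homPsh X x0 c)) ((fibre e x0 c).W b)
      (σ.homPsh (yon b.pt.U) (σ.v0 b.pt.U) (σ.v0 e.pt.unop ≫ b.elt.1)) :=
  ⟨fun a h => ⟨h.1, h.2.1, h.2.2.1⟩, fun f h => rfl⟩

theorem fibreToHom_bijective (hc : res X (σ.v0 e.pt.unop) e.elt = c)
    (b : El ((below X x0).W e)) (S : Dᵒᵖ) :
    Function.Bijective (fibreFun (fibreToHom e c b) S) := by
  constructor
  · rintro ⟨⟨s, hs⟩, h⟩ ⟨⟨s', hs'⟩, h'⟩ heq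
    have h1 : h.1 = h'.1 := congrArg Subtype.val heq
    have h2 : s = s' := h.2.2.2.symm.trans ((congrArg (fun w => res X w b.pt.y) h1).trans h'.2.2.2)
    subst h2
    exact congrArg (Sigma.mk _) (Subtype.ext h1)
  · intro h
    refine ⟨⟨⟨res X h.1 b.pt.y, ?_, ?_⟩, ⟨h.1, h.2.1, h.2.2, rfl⟩⟩, rfl⟩
    · rw [← res_comp, show σ.src S.unop ≫ h.1 = σ.v0 b.pt.U from h.2.1]; exact b.pt.based
    · rw [← res_comp, show σ.tgt S.unop ≫ h.1 = σ.v0 e.pt.unop ≫ b.elt.1 from h.2.2,
        res_comp, b.elt.2]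
      exact hc

end Susp

/-- A tower of extensions, each one level above the previous. -/
structure Tower : Type (u + 1) where
  C : ℕ → Type u
  cat : ∀ k, SmallCategory (C k)
  susp : ∀ k, Susp (C k) (C (k + 1))

attribute [instance] Tower.cat

/-- A class of presheaves closed under the operations of section 1: the contractible models. -/
structure Tower.Good (τ : Tower.{u}) : Type (u + 1) where
  mem : ∀ k, Psh (τ.C k) → Prop
  point : ∀ {k X}, mem k X → Nonempty (X.obj (op (τ.susp k).pt))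
  glues : ∀ {k X}, mem k X → (τ.susp k).Glues X
  hom : ∀ {k X}, mem k X → ∀ a b, mem (k + 1) ((τ.susp k).homPsh X a b)
  /-- The hom-presheaves of representables are retracts of members. -/
  yonHom : ∀ k (U : τ.C k) a b, ∃ Y, mem (k + 1) Y ∧
    ∃ (f : ShHom ((τ.susp k).homPsh (yon U) a b) Y) (g : ShHom Y ((τ.susp k).homPsh (yon U) a b)),
      ∀ S x, g.app S (f.app S x) = x

theorem exact_zero_of_point {A : Type u} [SmallCategory A] {P : Sh A} {b : A} (x : P.obj b) :
    (chains P).Exact 0 := by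
  intro z _
  have hz : z = (z (Seq.nil P)) • Finsupp.single (Seq.nil P) (1 : ℤ) := by
    rw [← single_eq_zsmul]
    refine Finsupp.ext fun s => ?_
    cases (show PUnit from s)
    exact (Finsupp.single_eq_same).symm
  refine ⟨(z (Seq.nil P)) • consL P b x (Finsupp.single (Seq.nil _) 1), ?_⟩
  show bd 0 P _ = z
  rw [map_zsmul, bd_zero_cons, mapL_single]
  exact hz.symm

/-- **Contractible models have acyclic categories of elements.** -/
theorem Tower.Good.exact {τ : Tower.{u}} (G : τ.Good) :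
    ∀ (n k : ℕ) (X : Psh (τ.C k)), G.mem k X → (chains X).Exact n := by
  intro n
  induction n using Nat.strong_induction_on with
  | h n ih =>
    intro k X hX
    obtain ⟨x0⟩ := G.point hX
    cases n with
    | zero => exact exact_zero_of_point x0
    | succ n =>
        refine (El.exact_iff X (n + 1)).1 ?_
        refine (Susp.below (σ := τ.susp k) X x0).exact_of_fibres (fun b => Susp.belowUniv b) (n + 1)
          (exact_of_initial (Susp.pointedInitial X x0) _) fun e j hj => ?_
        refine (El.exact_iff _ j).1 ?_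
        refine (Susp.fibre e x0 (res X ((τ.susp k).v0 _) e.elt)).exact_of_fibres
          (fun a => (Susp.fibre_flip_glue e _ (G.glues hX) rfl a).some) j
          ((El.exact_iff _ j).2 (ih j hj (k + 1) _ (G.hom hX _ _))) fun b i hi => ?_
        obtain ⟨Y, hY, f, g, hfg⟩ := G.yonHom k b.pt.U ((τ.susp k).v0 b.pt.U)
          ((τ.susp k).v0 e.pt.unop ≫ b.elt.1)
        exact (exact_iff_of_fibrewise _ (Susp.fibreToHom_bijective e _ rfl b) i).2
          (exact_of_iso f g hfg i (ih i (hi.trans hj) (k + 1) Y hY))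

end Vale.Agent.P259.Elem
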