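import Vale.Agent.P259.Elem.Slots

/-!
# P259, module C: the loops of every hom-model commute
-/

universe u

open CategoryTheory Opposite

namespace Vale.Agent.P259.Elem

open Vale.Agent.P259.Cat

variable {C D D' : Type u} [SmallCategory C] [SmallCategory D] [SmallCategory D']
  {σ : Susp C D} {τ : Susp D D'} {q : D'} {X : Psh C} (hX : σ.Glues X)
  (hT : σ.YonThin τ q) (hG : τ.HFill q) (hF : σ.HFill τ.pt)
  {a b : X.obj (op σ.pt)} (hY : τ.Glues (σ.homPsh X a b))
  (f : (σ.homPsh X a b).obj (op τ.pt))

/-- The reversed point. -/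
noncomputable def revPt : (σ.homPsh X b a).obj (op τ.pt) :=
  ⟨res X hF.flipE f.1, by rw [← res_comp, hF.src_flipE]; exact f.2.2,
    by rw [← res_comp, hF.tgt_flipE]; exact f.2.1⟩

/-- The identity point. -/
noncomputable def idPt (x : X.obj (op σ.pt)) : (σ.homPsh X x x).obj (op τ.pt) :=
  ⟨res X hF.deg x, by rw [← res_comp, hF.src_deg, res_id], by rw [← res_comp, hF.tgt_deg, res_id]⟩

theorem dropLast_cond (P : D) :
    σ.tgt P ≫ 𝟙 _ = σ.v0 (σ.sus.obj τ.pt) ≫ hF.deg ≫ σ.tgt P := by
  rw [σ.v0_sus, ← Category.assoc, hF.src_deg, Category.id_comp, Category.comp_id]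

theorem dropFirst_cond (U : C) :
    σ.tgt τ.pt ≫ hF.deg ≫ σ.v0 U = σ.v0 U ≫ 𝟙 _ := by
  rw [← Category.assoc, hF.tgt_deg, Category.id_comp, Category.comp_id]

/-- Collapse an identity piece at the end. -/
noncomputable def dropLast {P : D} (v : (σ.homPsh X a b).obj (op P)) :
    Marked.Hom (Chain.cons hX v (Chain.one (idPt hF b))).M (Chain.one v).M := by
  refine ⟨(σ.existsDesc _ _ (dropLast_cond hF P)).choose, ?_, ?_,
    Chain.cons_unique hX v (Chain.one (idPt hF b)) v.1
      (σ.existsDesc _ _ (dropLast_cond hF P)).choose ?_ ?_⟩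
  · show (σ.src P ≫ σ.inl P _) ≫ _ = σ.src P
    rw [Category.assoc, (σ.existsDesc _ _ (dropLast_cond hF P)).choose_spec.1, Category.comp_id]
  · show (σ.tgt τ.pt ≫ σ.inr P _) ≫ _ = σ.tgt P
    rw [Category.assoc, (σ.existsDesc _ _ (dropLast_cond hF P)).choose_spec.2, ← Category.assoc, hF.tgt_deg,
      Category.id_comp]
  · rw [(σ.existsDesc _ _ (dropLast_cond hF P)).choose_spec.1, res_id]
  · rw [(σ.existsDesc _ _ (dropLast_cond hF P)).choose_spec.2, res_comp, v.2.2]
    rfl

theorem dropLast_specs {P : D} (v : (σ.homPsh X a b).obj (op P)) :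
    σ.inl P (σ.sus.obj τ.pt) ≫ (dropLast hX hF v).n = 𝟙 _ ∧
      σ.inr P (σ.sus.obj τ.pt) ≫ (dropLast hX hF v).n = hF.deg ≫ σ.tgt P := by
  exact (σ.existsDesc _ _ (dropLast_cond hF P)).choose_spec

theorem dropLast_natural {P P' : D} (φ : P ⟶ P') {v : (σ.homPsh X a b).obj (op P)}
    {v' : (σ.homPsh X a b).obj (op P')} (hv : res X (σ.sus.map φ) v'.1 = v.1) :
    (consHom hX φ hv (Marked.Hom.id (Chain.one (idPt hF b)).M)).n ≫ (dropLast hX hF v').n
      = (dropLast hX hF v).n ≫ σ.sus.map φ := by
  refine σ.descUnique (S := P) (T := σ.sus.obj τ.pt) _ _ ?_ ?_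
  · rw [← Category.assoc, ← Category.assoc, (dropLast_specs hX hF v).1, Category.id_comp]
    refine (congrArg (· ≫ (dropLast hX hF v').n) (consHom_left hX φ hv
      (Marked.Hom.id (Chain.one (idPt hF b)).M))).trans ?_
    exact (Category.assoc _ _ _).trans ((congrArg (σ.sus.map φ ≫ ·)
      (dropLast_specs hX hF v').1).trans (Category.comp_id _))
  · rw [← Category.assoc, ← Category.assoc, (dropLast_specs hX hF v).2]
    refine (congrArg (· ≫ (dropLast hX hF v').n) (consHom_right hX φ hv
      (Marked.Hom.id (Chain.one (idPt hF b)).M))).trans ?_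
    refine (Category.assoc _ _ _).trans ((congrArg (𝟙 _ ≫ ·) (dropLast_specs hX hF v').2).trans ?_)
    rw [Category.id_comp, Category.assoc, σ.tgt_map]

/-- Collapse an identity piece at the start. -/
noncomputable def dropFirst (K : Chain σ X a b) :
    Marked.Hom (Chain.cons hX (idPt hF a) K).M K.M := by
  refine ⟨(σ.existsDesc _ _ (dropFirst_cond hF K.M.U)).choose, ?_, ?_,
    Chain.cons_unique hX (idPt hF a) K K.M.z
      (σ.existsDesc _ _ (dropFirst_cond hF K.M.U)).choose ?_ ?_⟩
  · show (σ.src τ.pt ≫ σ.inl τ.pt _) ≫ _ = K.M.s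
    rw [Category.assoc, (σ.existsDesc _ _ (dropFirst_cond hF K.M.U)).choose_spec.1, ← Category.assoc, hF.src_deg,
      Category.id_comp, K.std]
  · show (K.M.t ≫ σ.inr τ.pt _) ≫ _ = K.M.t
    rw [Category.assoc, (σ.existsDesc _ _ (dropFirst_cond hF K.M.U)).choose_spec.2, Category.comp_id]
  · rw [(σ.existsDesc _ _ (dropFirst_cond hF K.M.U)).choose_spec.1, res_comp, ← K.std, K.M.hs]
    rfl
  · rw [(σ.existsDesc _ _ (dropFirst_cond hF K.M.U)).choose_spec.2, res_id]

theorem dropFirst_specs (K : Chain σ X a b) :
    σ.inl τ.pt K.M.U ≫ (dropFirst hX hF K).n = hF.deg ≫ σ.v0 K.M.U ∧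
      σ.inr τ.pt K.M.U ≫ (dropFirst hX hF K).n = 𝟙 _ :=
  (σ.existsDesc _ _ (dropFirst_cond hF K.M.U)).choose_spec

/-- The chain `f f̄ f` without its first piece. -/
noncomputable abbrev backChain : Chain σ X b b := Chain.cons hX (revPt hF f) (Chain.one f)

/-- The chain `f f̄`. -/
noncomputable abbrev forthChain : Chain σ X a a := Chain.cons hX f (Chain.one (revPt hF f))

/-- The element of `f` marked twice at the same end. -/
abbrev sameEnd : Marked σ X b b := ⟨σ.sus.obj τ.pt, f.1, σ.tgt _, σ.tgt _, f.2.2, f.2.2⟩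

/-- The element of `f` marked twice at the start. -/
abbrev sameStart : Marked σ X a a := ⟨σ.sus.obj τ.pt, f.1, σ.src _, σ.src _, f.2.1, f.2.1⟩

include hT hF in
/-- `f̄ f` is linked to the identity. -/
theorem back_linked : ∃ (c : Marked.Pt τ (backChain hX hF f).M),
    Nonempty (Edge τ q (σ.homPsh X b b) ((backChain hX hF f).M.img c) (idPt hF b)) := by
  obtain ⟨c⟩ := (backChain hX hF f).M.exists_pt hF (τ := τ)
  have d : σ.tgt τ.pt ≫ hF.flipE = σ.v0 (σ.sus.obj τ.pt) ≫ 𝟙 _ := by
    rw [hF.tgt_flipE, σ.v0_sus, Category.comp_id]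
  obtain ⟨k, hk1, hk2⟩ := σ.existsDesc _ _ d
  let N : Marked.Hom (backChain hX hF f).M (sameEnd f) := ⟨k,
    by show (σ.src τ.pt ≫ σ.inl τ.pt _) ≫ k = σ.tgt τ.pt
       rw [Category.assoc, hk1, hF.src_flipE],
    by show (σ.tgt τ.pt ≫ σ.inr τ.pt _) ≫ k = σ.tgt τ.pt
       rw [Category.assoc, hk2, Category.comp_id],
    Chain.cons_unique hX (revPt hF f) (Chain.one f) f.1 k (by rw [hk1]; rfl) (by rw [hk2, res_id])⟩
  let dg : Marked.Pt τ (sameEnd f) := ⟨hF.deg ≫ σ.tgt τ.pt,
    by show σ.src τ.pt ≫ hF.deg ≫ σ.tgt τ.pt = σ.tgt τ.pt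
       rw [← Category.assoc, hF.src_deg, Category.id_comp],
    by show σ.tgt τ.pt ≫ hF.deg ≫ σ.tgt τ.pt = σ.tgt τ.pt
       rw [← Category.assoc, hF.tgt_deg, Category.id_comp]⟩
  obtain ⟨e⟩ := hT.exists_edge _ _ _ (N.post.app (op τ.pt) c) dg
  refine ⟨c, ⟨e.mapTo (sameEnd f).push (Marked.img_post N c) (Subtype.ext ?_)⟩⟩
  show res X (hF.deg ≫ σ.tgt τ.pt) f.1 = res X hF.deg b
  rw [res_comp, f.2.2]

include hT hF in
/-- `f f̄` is linked to the identity. -/
theorem forth_linked : ∃ (c : Marked.Pt τ (forthChain hX hF f).M),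
    Nonempty (Edge τ q (σ.homPsh X a a) ((forthChain hX hF f).M.img c) (idPt hF a)) := by
  obtain ⟨c⟩ := (forthChain hX hF f).M.exists_pt hF (τ := τ)
  have d : σ.tgt τ.pt ≫ 𝟙 _ = σ.v0 (σ.sus.obj τ.pt) ≫ hF.flipE := by
    rw [σ.v0_sus, hF.src_flipE, Category.comp_id]
  obtain ⟨k, hk1, hk2⟩ := σ.existsDesc _ _ d
  let N : Marked.Hom (forthChain hX hF f).M (sameStart f) := ⟨k,
    by show (σ.src τ.pt ≫ σ.inl τ.pt _) ≫ k = σ.src τ.pt
       rw [Category.assoc, hk1, Category.comp_id],
    by show (σ.tgt τ.pt ≫ σ.inr τ.pt _) ≫ k = σ.src τ.pt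
       rw [Category.assoc, hk2, hF.tgt_flipE],
    Chain.cons_unique hX f (Chain.one (revPt hF f)) f.1 k (by rw [hk1, res_id]) (by rw [hk2]; rfl)⟩
  let dg : Marked.Pt τ (sameStart f) := ⟨hF.deg ≫ σ.src τ.pt,
    by show σ.src τ.pt ≫ hF.deg ≫ σ.src τ.pt = σ.src τ.pt
       rw [← Category.assoc, hF.src_deg, Category.id_comp],
    by show σ.tgt τ.pt ≫ hF.deg ≫ σ.src τ.pt = σ.src τ.pt
       rw [← Category.assoc, hF.tgt_deg, Category.id_comp]⟩
  obtain ⟨e⟩ := hT.exists_edge _ _ _ (N.post.app (op τ.pt) c) dg
  refine ⟨c, ⟨e.mapTo (sameStart f).push (Marked.img_post N c) (Subtype.ext ?_)⟩⟩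
  show res X (hF.deg ≫ σ.src τ.pt) f.1 = res X hF.deg a
  rw [res_comp, f.2.1]

/-- A point gives a map from the piece it names. -/
def pointHom {x y : X.obj (op σ.pt)} (M : Marked σ X x y) (c : Marked.Pt τ M) :
    Marked.Hom (Chain.one (M.img c)).M M :=
  ⟨c.1, c.2.1, c.2.2, rfl⟩

theorem sus_id_res {x y : X.obj (op σ.pt)} {P : D} (v : (σ.homPsh X x y).obj (op P)) :
    res X (σ.sus.map (𝟙 P)) v.1 = v.1 := by
  rw [σ.sus.map_id]
  exact res_id X _

include hT hF in
/-- The shape `(α, f̄, f)` conjugates to the identity. -/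
theorem head_conjugates : Conjugates hT hG hY
    (fun α => headShape hX α (backChain hX hF f)) (Chain.cons hX f (backChain hX hF f)).M
    (fun _ => rfl) := by
  obtain ⟨c, ⟨H⟩⟩ := back_linked hX hT hF f
  set l := (backChain hX hF f).M.img c
  have h0 : Conjugates hT hG hY (fun α => headShape hX α (Chain.one (idPt hF b)))
      (Chain.cons hX f (Chain.one (idPt hF b))).M (fun _ => rfl) := by
    refine conj_map hT hG hY (F' := fun α => baseShape α) _ (fun _ => rfl) (dropLast hX hF f)
      (fun α => ⟨dropLast hX hF f, dropLast hX hF α.1, HEq.rfl,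
        dropLast_natural hX hF (τ.src q) (congrArg Subtype.val α.2.1),
        dropLast_natural hX hF (τ.tgt q) (congrArg Subtype.val α.2.2)⟩) (conj_base hT hG hF hY)
  let K : Chain σ X b b := Chain.one (P := τ.sus.obj q) H.1
  let side (N : Marked.Hom (Chain.one (idPt hF b)).M K.M) :=
    consHom hX (K := Chain.one (idPt hF b)) (K' := K) (𝟙 τ.pt) (sus_id_res f) N
  have h1 : Conjugates hT hG hY (fun α => headShape hX α K) (Chain.cons hX f K).M (fun _ => rfl) :=
    conj_push hT hG hF hY _ _ (side (edgeSide H).2)
      (fun α => ⟨_, consHom hX (𝟙 _) (sus_id_res (P := τ.sus.obj q) α.1) (edgeSide H).2, HEq.rfl,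
        consMap_square (by first
          | rfl
          | exact (Category.id_comp _).trans (Category.comp_id _).symm
          | exact (Category.comp_id _).trans (Category.id_comp _).symm
          | simp) (by first
          | rfl
          | exact (Category.id_comp _).trans (Category.comp_id _).symm
          | exact (Category.comp_id _).trans (Category.id_comp _).symm
          | simp),
        consMap_square (by first
          | rfl
          | exact (Category.id_comp _).trans (Category.comp_id _).symm
          | exact (Category.comp_id _).trans (Category.id_comp _).symm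
          | simp) (by first
          | rfl
          | exact (Category.id_comp _).trans (Category.comp_id _).symm
          | exact (Category.comp_id _).trans (Category.id_comp _).symm
          | simp)⟩) h0
  have h2 : Conjugates hT hG hY (fun α => headShape hX α (Chain.one l))
      (Chain.cons hX f (Chain.one l)).M (fun _ => rfl) :=
    conj_map hT hG hY _ _ (consHom hX (𝟙 τ.pt) (sus_id_res f) (edgeSide H).1)
      (fun α => ⟨_, consHom hX (𝟙 _) (sus_id_res (P := τ.sus.obj q) α.1) (edgeSide H).1, HEq.rfl,
        consMap_square (by first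
          | rfl
          | exact (Category.id_comp _).trans (Category.comp_id _).symm
          | exact (Category.comp_id _).trans (Category.id_comp _).symm
          | simp) (by first
          | rfl
          | exact (Category.id_comp _).trans (Category.comp_id _).symm
          | exact (Category.comp_id _).trans (Category.id_comp _).symm
          | simp),
        consMap_square (by first
          | rfl
          | exact (Category.id_comp _).trans (Category.comp_id _).symm
          | exact (Category.comp_id _).trans (Category.id_comp _).symm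
          | simp) (by first
          | rfl
          | exact (Category.id_comp _).trans (Category.comp_id _).symm
          | exact (Category.comp_id _).trans (Category.id_comp _).symm
          | simp)⟩) h1
  exact conj_push hT hG hF hY _ _
    (consHom hX (K := Chain.one l) (K' := backChain hX hF f) (𝟙 τ.pt) (sus_id_res f)
      (pointHom _ c))
    (fun α => ⟨_, consHom hX (K := Chain.one l) (K' := backChain hX hF f) (𝟙 _)
      (sus_id_res (P := τ.sus.obj q) α.1) (pointHom _ c), HEq.rfl,
      consMap_square (by first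
          | rfl
          | exact (Category.id_comp _).trans (Category.comp_id _).symm
          | exact (Category.comp_id _).trans (Category.id_comp _).symm
          | simp) (by first
          | rfl
          | exact (Category.id_comp _).trans (Category.comp_id _).symm
          | exact (Category.comp_id _).trans (Category.id_comp _).symm
          | simp),
      consMap_square (by first
          | rfl
          | exact (Category.id_comp _).trans (Category.comp_id _).symm
          | exact (Category.comp_id _).trans (Category.id_comp _).symm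
          | simp) (by first
          | rfl
          | exact (Category.id_comp _).trans (Category.comp_id _).symm
          | exact (Category.comp_id _).trans (Category.id_comp _).symm
          | simp)⟩) h2

/-- A loop in the last place of `f f̄ f`. -/
noncomputable abbrev tailShape (β : Edge τ q (σ.homPsh X a b) f f) : Shape σ X a b :=
  ⟨(Chain.cons hX f (backChain hX hF f)).M,
    (Chain.cons hX f (Chain.cons hX (revPt hF f) (Chain.one (P := τ.sus.obj q) β.1))).M,
    consHom hX (𝟙 τ.pt) (sus_id_res f)
      (consHom hX (𝟙 τ.pt) (sus_id_res (revPt hF f)) (edgeSide β).1),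
    consHom hX (𝟙 τ.pt) (sus_id_res f)
      (consHom hX (𝟙 τ.pt) (sus_id_res (revPt hF f)) (edgeSide β).2)⟩

theorem prefix_cond (K : Chain σ X a b) :
    σ.tgt τ.pt ≫ σ.inl τ.pt (σ.add τ.pt K.M.U)
      = σ.v0 (σ.sus.obj τ.pt) ≫ σ.inl τ.pt K.M.U ≫ σ.inr τ.pt (σ.add τ.pt K.M.U) := by
  rw [σ.glue, σ.v0_add, σ.v0_sus, Category.assoc]

/-- The first two pieces. -/
noncomputable def prefixMap (K : Chain σ X a b) :
    σ.add τ.pt (σ.sus.obj τ.pt) ⟶ σ.add τ.pt (σ.add τ.pt K.M.U) :=
  (σ.existsDesc _ _ (prefix_cond K)).choose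

theorem prefixMap_specs (K : Chain σ X a b) :
    σ.inl τ.pt _ ≫ prefixMap K = σ.inl τ.pt (σ.add τ.pt K.M.U) ∧
      σ.inr τ.pt _ ≫ prefixMap K = σ.inl τ.pt K.M.U ≫ σ.inr τ.pt (σ.add τ.pt K.M.U) :=
  (σ.existsDesc _ _ (prefix_cond K)).choose_spec

theorem mergeFirst_cond (c : Marked.Pt τ (forthChain hX hF f).M) (K : Chain σ X a b) :
    σ.tgt τ.pt ≫ c.1 ≫ prefixMap K
      = σ.v0 K.M.U ≫ σ.inr τ.pt K.M.U ≫ σ.inr τ.pt (σ.add τ.pt K.M.U) := by
  have h : σ.tgt τ.pt ≫ c.1 = σ.tgt τ.pt ≫ σ.inr τ.pt (σ.sus.obj τ.pt) := c.2.2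
  rw [← Category.assoc, h, Category.assoc, (prefixMap_specs K).2, ← Category.assoc, σ.glue,
    Category.assoc]

/-- Merge `f f̄` into one piece. -/
noncomputable def mergeFirst (c : Marked.Pt τ (forthChain hX hF f).M) (K : Chain σ X a b) :
    Marked.Hom (Chain.cons hX ((forthChain hX hF f).M.img c) K).M
      (Chain.cons hX f (Chain.cons hX (revPt hF f) K)).M := by
  refine ⟨(σ.existsDesc _ _ (mergeFirst_cond hX hF f c K)).choose, ?_, ?_,
    Chain.cons_unique hX _ K _ (σ.existsDesc _ _ (mergeFirst_cond hX hF f c K)).choose ?_ ?_⟩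
  · show (σ.src τ.pt ≫ σ.inl τ.pt _) ≫ _ = σ.src τ.pt ≫ σ.inl τ.pt _
    rw [Category.assoc, (σ.existsDesc _ _ (mergeFirst_cond hX hF f c K)).choose_spec.1,
      ← Category.assoc, show σ.src τ.pt ≫ c.1 = σ.src τ.pt ≫ σ.inl τ.pt _ from c.2.1,
      Category.assoc, (prefixMap_specs K).1]
  · show (K.M.t ≫ σ.inr τ.pt _) ≫ _ = (K.M.t ≫ σ.inr τ.pt _) ≫ σ.inr τ.pt _
    rw [Category.assoc, Category.assoc, (σ.existsDesc _ _ (mergeFirst_cond hX hF f c K)).choose_spec.2]
  · rw [(σ.existsDesc _ _ (mergeFirst_cond hX hF f c K)).choose_spec.1, res_comp]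
    refine congrArg (res X c.1) (Chain.cons_unique hX f (Chain.one (revPt hF f))
      (Chain.cons hX f (Chain.cons hX (revPt hF f) K)).M.z (prefixMap K) ?_ ?_)
    · rw [(prefixMap_specs K).1]
      exact Chain.cons_left hX f (Chain.cons hX (revPt hF f) K)
    · rw [(prefixMap_specs K).2, res_comp]
      exact (congrArg (res X _) (Chain.cons_right hX f (Chain.cons hX (revPt hF f) K))).trans
        (Chain.cons_left hX (revPt hF f) K)
  · rw [(σ.existsDesc _ _ (mergeFirst_cond hX hF f c K)).choose_spec.2, res_comp]
    exact (congrArg (res X _) (Chain.cons_right hX f (Chain.cons hX (revPt hF f) K))).trans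
      (Chain.cons_right hX (revPt hF f) K)

theorem mergeFirst_specs (c : Marked.Pt τ (forthChain hX hF f).M) (K : Chain σ X a b) :
    σ.inl τ.pt K.M.U ≫ (mergeFirst hX hF f c K).n = c.1 ≫ prefixMap K ∧
      σ.inr τ.pt K.M.U ≫ (mergeFirst hX hF f c K).n
        = σ.inr τ.pt K.M.U ≫ σ.inr τ.pt (σ.add τ.pt K.M.U) :=
  (σ.existsDesc _ _ (mergeFirst_cond hX hF f c K)).choose_spec

theorem mergeFirst_natural (c : Marked.Pt τ (forthChain hX hF f).M) {K K' : Chain σ X a b}
    (N : Marked.Hom K.M K'.M) :
    (consHom hX (𝟙 τ.pt) (sus_id_res ((forthChain hX hF f).M.img c)) N).n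
        ≫ (mergeFirst hX hF f c K').n
      = (mergeFirst hX hF f c K).n ≫ (consHom hX (𝟙 τ.pt) (sus_id_res f)
          (consHom hX (𝟙 τ.pt) (sus_id_res (revPt hF f)) N)).n := by
  refine σ.descUnique (S := τ.pt) (T := K.M.U) _ _ ?_ ?_
  · rw [← Category.assoc, ← Category.assoc, consHom_left, (mergeFirst_specs hX hF f c K).1,
      σ.sus.map_id, Category.id_comp, (mergeFirst_specs hX hF f c K').1, Category.assoc]
    refine congrArg (fun m => c.1 ≫ m)
      (σ.descUnique (S := τ.pt) (T := σ.sus.obj τ.pt) _ _ ?_ ?_)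
    · rw [← Category.assoc, (prefixMap_specs K).1, (prefixMap_specs K').1]
      exact ((consHom_left hX (𝟙 τ.pt) (sus_id_res f)
        (consHom hX (𝟙 τ.pt) (sus_id_res (revPt hF f)) N)).trans
          (by rw [σ.sus.map_id]; exact Category.id_comp _)).symm
    · rw [← Category.assoc, (prefixMap_specs K).2, (prefixMap_specs K').2]
      show _ = (_ ≫ σ.inr τ.pt (Chain.cons hX (revPt hF f) K).M.U) ≫ _
      rw [Category.assoc, consHom_right, ← Category.assoc, consHom_left, σ.sus.map_id,
        Category.id_comp]
  · rw [← Category.assoc, ← Category.assoc, consHom_right, (mergeFirst_specs hX hF f c K).2,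
      Category.assoc, (mergeFirst_specs hX hF f c K').2]
    show _ = (_ ≫ σ.inr τ.pt (Chain.cons hX (revPt hF f) K).M.U) ≫ _
    rw [Category.assoc, consHom_right, ← Category.assoc, ← Category.assoc, consHom_right]

theorem dropFirst_natural {K K' : Chain σ X a b} (N : Marked.Hom K.M K'.M) :
    (consHom hX (𝟙 τ.pt) (sus_id_res (idPt hF a)) N).n ≫ (dropFirst hX hF K').n
      = (dropFirst hX hF K).n ≫ N.n := by
  refine σ.descUnique (S := τ.pt) (T := K.M.U) _ _ ?_ ?_
  · rw [← Category.assoc, ← Category.assoc, consHom_left, (dropFirst_specs hX hF K).1,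
      σ.sus.map_id, Category.id_comp, (dropFirst_specs hX hF K').1, Category.assoc, ← K.std,
      N.s_n, K'.std]
  · rw [← Category.assoc, ← Category.assoc, consHom_right, (dropFirst_specs hX hF K).2,
      Category.assoc, (dropFirst_specs hX hF K').2, Category.id_comp, Category.comp_id]

include hT hF in
/-- The shape `(f, f̄, β)` conjugates to the identity. -/
theorem tail_conjugates : Conjugates hT hG hY (fun β => tailShape hX hF f β)
    (Chain.cons hX f (backChain hX hF f)).M (fun _ => rfl) := by
  obtain ⟨c, ⟨H⟩⟩ := forth_linked hX hT hF f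
  set l := (forthChain hX hF f).M.img c
  have h0 : Conjugates hT hG hY (fun β => lastShape hX (idPt hF a) β)
      (Chain.cons hX (idPt hF a) (Chain.one f)).M (fun _ => rfl) :=
    conj_map hT hG hY (F' := fun β => baseShape β) _ (fun _ => rfl) (dropFirst hX hF (Chain.one f))
      (fun β => ⟨_, dropFirst hX hF (Chain.one (P := τ.sus.obj q) β.1), HEq.rfl,
        dropFirst_natural hX hF (edgeSide β).1, dropFirst_natural hX hF (edgeSide β).2⟩)
      (conj_base hT hG hF hY)
  have h1 : Conjugates hT hG hY (fun β => lastShape hX (P := τ.sus.obj q) H.1 β)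
      (Chain.cons hX (P := τ.sus.obj q) H.1 (Chain.one f)).M (fun _ => rfl) :=
    conj_push hT hG hF hY _ _
      (consHom hX (τ.tgt q) (congrArg Subtype.val H.2.2) (Marked.Hom.id (Chain.one f).M))
      (fun β => ⟨_, consHom hX (τ.tgt q) (congrArg Subtype.val H.2.2) (Marked.Hom.id _), HEq.rfl,
        consMap_square (by first
          | rfl
          | exact (Category.id_comp _).trans (Category.comp_id _).symm
          | exact (Category.comp_id _).trans (Category.id_comp _).symm
          | simp) (by first
          | rfl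
          | exact (Category.id_comp _).trans (Category.comp_id _).symm
          | exact (Category.comp_id _).trans (Category.id_comp _).symm
          | simp),
        consMap_square (by first
          | rfl
          | exact (Category.id_comp _).trans (Category.comp_id _).symm
          | exact (Category.comp_id _).trans (Category.id_comp _).symm
          | simp) (by first
          | rfl
          | exact (Category.id_comp _).trans (Category.comp_id _).symm
          | exact (Category.comp_id _).trans (Category.id_comp _).symm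
          | simp)⟩) h0
  have h2 : Conjugates hT hG hY (fun β => lastShape hX l β)
      (Chain.cons hX l (Chain.one f)).M (fun _ => rfl) :=
    conj_map hT hG hY _ _
      (consHom hX (τ.src q) (congrArg Subtype.val H.2.1) (Marked.Hom.id (Chain.one f).M))
      (fun β => ⟨_, consHom hX (τ.src q) (congrArg Subtype.val H.2.1) (Marked.Hom.id _), HEq.rfl,
        consMap_square (by first
          | rfl
          | exact (Category.id_comp _).trans (Category.comp_id _).symm
          | exact (Category.comp_id _).trans (Category.id_comp _).symm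
          | simp) (by first
          | rfl
          | exact (Category.id_comp _).trans (Category.comp_id _).symm
          | exact (Category.comp_id _).trans (Category.id_comp _).symm
          | simp),
        consMap_square (by first
          | rfl
          | exact (Category.id_comp _).trans (Category.comp_id _).symm
          | exact (Category.comp_id _).trans (Category.id_comp _).symm
          | simp) (by first
          | rfl
          | exact (Category.id_comp _).trans (Category.comp_id _).symm
          | exact (Category.comp_id _).trans (Category.id_comp _).symm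
          | simp)⟩) h1
  exact conj_push hT hG hF hY _ _ (mergeFirst hX hF f c (Chain.one f))
    (fun β => ⟨_, mergeFirst hX hF f c (Chain.one (P := τ.sus.obj q) β.1), HEq.rfl,
      mergeFirst_natural hX hF f c (edgeSide β).1, mergeFirst_natural hX hF f c (edgeSide β).2⟩) h2

include hX hT hF in
/-- **Loops commute.** -/
theorem loops_commute (u v : (⟨f⟩ : Pi hG hY) ⟶ ⟨f⟩) : u ≫ v = v ≫ u := by
  let A := (Chain.cons hX f (backChain hX hF f)).M
  obtain ⟨P⟩ := A.exists_pt hF (τ := τ)
  obtain ⟨ξ, hξ⟩ := head_conjugates hX hT hG hF hY f P _ rfl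
  obtain ⟨η, hη⟩ := tail_conjugates hX hT hG hF hY f P _ rfl
  have comm : ∀ α β : Edge τ q (σ.homPsh X a b) f f,
      (headShape hX α (backChain hX hF f)).op' hT hG hY P rfl
          ≫ (tailShape hX hF f β).op' hT hG hY P rfl
        = (tailShape hX hF f β).op' hT hG hY P rfl
          ≫ (headShape hX α (backChain hX hF f)).op' hT hG hY P rfl := by
    intro α β
    let SA := headShape hX α (backChain hX hF f)
    let SB := tailShape hX hF f β
    let top := Chain.cons hX (P := τ.sus.obj q) α.1
      (Chain.cons hX (revPt hF f) (Chain.one (P := τ.sus.obj q) β.1))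
    let up (e : Marked.Hom (Chain.one f).M (Chain.one (P := τ.sus.obj q) β.1).M) :
        Marked.Hom SA.B top.M :=
      consHom hX (K := backChain hX hF f)
        (K' := Chain.cons hX (revPt hF f) (Chain.one (P := τ.sus.obj q) β.1))
        (𝟙 _) (sus_id_res (P := τ.sus.obj q) α.1)
        (consHom hX (𝟙 τ.pt) (sus_id_res (revPt hF f)) e)
    let r0 : Marked.Hom SB.B top.M :=
      consHom hX (τ.src q) (congrArg Subtype.val α.2.1) (Marked.Hom.id _)
    let r1 : Marked.Hom SB.B top.M :=
      consHom hX (τ.tgt q) (congrArg Subtype.val α.2.2) (Marked.Hom.id _)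
    have e00 : (up (edgeSide β).1).post.app (op τ.pt) (SA.m0.post.app (op τ.pt) P)
        = r0.post.app (op τ.pt) (SB.m0.post.app (op τ.pt) P) := by
      refine Subtype.ext ?_
      show (P.1 ≫ SA.m0.n) ≫ _ = (P.1 ≫ SB.m0.n) ≫ _
      rw [Category.assoc, Category.assoc]
      exact congrArg (fun m => P.1 ≫ m) (consMap_square (by first
          | rfl
          | exact (Category.id_comp _).trans (Category.comp_id _).symm
          | exact (Category.comp_id _).trans (Category.id_comp _).symm
          | simp) (by first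
          | rfl
          | exact (Category.id_comp _).trans (Category.comp_id _).symm
          | exact (Category.comp_id _).trans (Category.id_comp _).symm
          | simp))
    have e10 : (up (edgeSide β).1).post.app (op τ.pt) (SA.m1.post.app (op τ.pt) P)
        = r1.post.app (op τ.pt) (SB.m0.post.app (op τ.pt) P) := by
      refine Subtype.ext ?_
      show (P.1 ≫ SA.m1.n) ≫ _ = (P.1 ≫ SB.m0.n) ≫ _
      rw [Category.assoc, Category.assoc]
      exact congrArg (fun m => P.1 ≫ m) (consMap_square (by first
          | rfl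
          | exact (Category.id_comp _).trans (Category.comp_id _).symm
          | exact (Category.comp_id _).trans (Category.id_comp _).symm
          | simp) (by first
          | rfl
          | exact (Category.id_comp _).trans (Category.comp_id _).symm
          | exact (Category.comp_id _).trans (Category.id_comp _).symm
          | simp))
    have e01 : (up (edgeSide β).2).post.app (op τ.pt) (SA.m0.post.app (op τ.pt) P)
        = r0.post.app (op τ.pt) (SB.m1.post.app (op τ.pt) P) := by
      refine Subtype.ext ?_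
      show (P.1 ≫ SA.m0.n) ≫ _ = (P.1 ≫ SB.m1.n) ≫ _
      rw [Category.assoc, Category.assoc]
      exact congrArg (fun m => P.1 ≫ m) (consMap_square (by first
          | rfl
          | exact (Category.id_comp _).trans (Category.comp_id _).symm
          | exact (Category.comp_id _).trans (Category.id_comp _).symm
          | simp) (by first
          | rfl
          | exact (Category.id_comp _).trans (Category.comp_id _).symm
          | exact (Category.comp_id _).trans (Category.id_comp _).symm
          | simp))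
    have e11 : (up (edgeSide β).2).post.app (op τ.pt) (SA.m1.post.app (op τ.pt) P)
        = r1.post.app (op τ.pt) (SB.m1.post.app (op τ.pt) P) := by
      refine Subtype.ext ?_
      show (P.1 ≫ SA.m1.n) ≫ _ = (P.1 ≫ SB.m1.n) ≫ _
      rw [Category.assoc, Category.assoc]
      exact congrArg (fun m => P.1 ≫ m) (consMap_square (by first
          | rfl
          | exact (Category.id_comp _).trans (Category.comp_id _).symm
          | exact (Category.comp_id _).trans (Category.id_comp _).symm
          | simp) (by first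
          | rfl
          | exact (Category.id_comp _).trans (Category.comp_id _).symm
          | exact (Category.comp_id _).trans (Category.id_comp _).symm
          | simp))
    let pA (N : Marked.Hom SA.A SA.B) : SA.B.img (N.post.app (op τ.pt) P) = A.img P :=
      Marked.img_post N P
    let pB (N : Marked.Hom SB.A SB.B) : SB.B.img (N.post.app (op τ.pt) P) = A.img P :=
      Marked.img_post N P
    have a0 := Marked.arr_post hT hG hY (up (edgeSide β).1) (pA SA.m0) (pA SA.m1)
    have a1 := Marked.arr_post hT hG hY (up (edgeSide β).2) (pA SA.m0) (pA SA.m1)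
    have b0 := Marked.arr_post hT hG hY r0 (pB SB.m0) (pB SB.m1)
    have b1 := Marked.arr_post hT hG hY r1 (pB SB.m0) (pB SB.m1)
    rw [Marked.arr_congr hT hG hY top.M e00 e10 _ _ ((Marked.img_post r0 _).trans (pB SB.m0))
      ((Marked.img_post r1 _).trans (pB SB.m0))] at a0
    rw [Marked.arr_congr hT hG hY top.M e01 e11 _ _ ((Marked.img_post r0 _).trans (pB SB.m1))
      ((Marked.img_post r1 _).trans (pB SB.m1))] at a1
    show Marked.arr hT hG hY SA.B _ _ _ _ ≫ Marked.arr hT hG hY SB.B _ _ _ _
      = Marked.arr hT hG hY SB.B _ _ _ _ ≫ Marked.arr hT hG hY SA.B _ _ _ _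
    conv_lhs => rw [← a0, ← b1, Marked.arr_comp]
    conv_rhs => rw [← a1, ← b0, Marked.arr_comp]
  have hA : ∀ α, (headShape hX α (backChain hX hF f)).op' hT hG hY P rfl
      = ξ ≫ α.arrow hG hY ≫ inv ξ := by
    intro α
    rw [← Category.assoc, IsIso.eq_comp_inv]
    exact hξ α P rfl HEq.rfl
  have hB : ∀ β, (tailShape hX hF f β).op' hT hG hY P rfl
      = η ≫ β.arrow hG hY ≫ inv η := by
    intro β
    rw [← Category.assoc, IsIso.eq_comp_inv]
    exact hη β P rfl HEq.rfl
  obtain ⟨α, rfl⟩ : ∃ α : Edge τ q (σ.homPsh X a b) f f, α.arrow hG hY = u :=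
    Quot.exists_rep u
  obtain ⟨β, hβ⟩ : ∃ β : Edge τ q (σ.homPsh X a b) f f,
      β.arrow hG hY = inv η ≫ ξ ≫ v ≫ inv ξ ≫ η :=
    Quot.exists_rep _
  have hc := comm α β
  rw [hA, hB, hβ] at hc
  simp only [Category.assoc, IsIso.hom_inv_id, IsIso.hom_inv_id_assoc,
    IsIso.inv_hom_id_assoc, Category.comp_id] at hc
  rw [← cancel_epi ξ, ← cancel_mono (inv ξ)]
  simpa only [Category.assoc] using hc

end Vale.Agent.P259.Elem
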