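import Vale.Agent.P259.Cat.Transgression

/-!
# P259, module C: functors on a category of elements
-/

universe u

open CategoryTheory

namespace Vale.Agent.P259.Cat

variable {A : Type u} [SmallCategory A] {P : Sh A} {Q : Sh (El P)} {R : Sh A}

/-- The map induced on the total set over `b`. -/
def fibreFun (t : FHom (El.proj P) Q R) (b : A) (x : Σ x : P.obj b, Q.obj ⟨b, x⟩) : R.obj b :=
  t.app ⟨b, x.1⟩ x.2

theorem push_bijective_of_fibrewise (t : FHom (El.proj P) Q R)
    (h : ∀ b, Function.Bijective (fibreFun t b)) (k : ℕ) :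
    Function.Bijective (Seq.push (El.proj P) k t) := by
  cases k with
  | zero => exact ⟨fun _ _ _ => rfl, fun _ => ⟨PUnit.unit, rfl⟩⟩
  | succ k =>
      constructor
      · intro s s' e
        obtain ⟨⟨b, x⟩, q, r, rfl⟩ := Seq.exists_cons s
        obtain ⟨⟨b', x'⟩, q', r', rfl⟩ := Seq.exists_cons s'
        obtain ⟨hb, he⟩ := Sigma.mk.inj e
        change b = b' at hb
        subst hb
        obtain ⟨hq, hr⟩ := Prod.mk.inj (eq_of_heq he)
        have := (h b).1 (a₁ := ⟨x, q⟩) (a₂ := ⟨x', q'⟩) hq
        cases this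
        have hr' : r = r' := by
          rw [← El.lift_push P k ⟨b, x⟩ r, ← El.lift_push P k ⟨b, x⟩ r']
          exact congrArg _ hr
        rw [hr']
      · intro s
        obtain ⟨b, y, r, rfl⟩ := Seq.exists_cons s
        obtain ⟨⟨x, q⟩, hxq⟩ := (h b).2 y
        refine ⟨Seq.cons ⟨b, x⟩ q (El.lift P k ⟨b, x⟩ r), ?_⟩
        subst hxq
        exact congrArg (fun w => (⟨b, t.app ⟨b, x⟩ q, w⟩ : Seq A (k + 1) R))
          (El.push_lift P k ⟨b, x⟩ r)

theorem pushL_bijective_of_fibrewise (t : FHom (El.proj P) Q R)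
    (h : ∀ b, Function.Bijective (fibreFun t b)) (k : ℕ) :
    Function.Bijective (pushL t k) :=
  ⟨Finsupp.mapDomain_injective (push_bijective_of_fibrewise t h k).1,
    Finsupp.mapDomain_surjective (push_bijective_of_fibrewise t h k).2⟩

theorem mapH_bijective_of_bijective {C D : Cx.{u}} (f : CxHom C D)
    (h : ∀ n, Function.Bijective (f.f n)) (n : ℕ) : Function.Bijective (f.mapH n) := by
  let g : CxHom D C :=
    ⟨fun n => (AddEquiv.ofBijective (f.f n) (h n)).symm.toAddMonoidHom, fun n x => by
      refine (h n).1 ?_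
      refine ((AddEquiv.ofBijective (f.f n) (h n)).apply_symm_apply _).trans ?_
      rw [f.comm]
      exact congrArg (D.d n) ((AddEquiv.ofBijective (f.f (n + 1)) (h (n + 1))).apply_symm_apply x).symm⟩
  exact f.mapH_bijective_of_inverse g n
    (fun x => (AddEquiv.ofBijective (f.f n) (h n)).symm_apply_apply x)
    (fun x => (AddEquiv.ofBijective (f.f n) (h n)).apply_symm_apply x)

/-- A functor on elements and its total functor have the same homology. -/
theorem exact_iff_of_fibrewise (t : FHom (El.proj P) Q R)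
    (h : ∀ b, Function.Bijective (fibreFun t b)) (n : ℕ) :
    (chains Q).Exact n ↔ (chains R).Exact n := by
  rw [Cx.exact_iff_subsingleton, Cx.exact_iff_subsingleton]
  exact (Equiv.ofBijective _ (mapH_bijective_of_bijective (chainsPush t)
    (pushL_bijective_of_fibrewise t h) n)).subsingleton_congr

end Vale.Agent.P259.Cat
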