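import Vale.Agent.P259.Elem.Transport

/-!
# P259, module C: edges modulo homotopy form a groupoid
-/

universe u

open CategoryTheory Opposite

namespace Vale.Agent.P259.Elem

open Vale.Agent.P259.Cat

variable {C D : Type u} [SmallCategory C] [SmallCategory D]

/-- Edges exist in representables, and parallel edges there bound a suspended cell. -/
structure Susp.HFill (σ : Susp C D) (p : D) : Prop where
  edges : σ.Edges p
  fill : ∀ (U : C) (h h' : σ.sus.obj p ⟶ U), σ.src p ≫ h = σ.src p ≫ h' →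
    σ.tgt p ≫ h = σ.tgt p ≫ h' → ∃ (S : D) (a b : σ.sus.obj p ⟶ σ.sus.obj S)
      (H : σ.sus.obj S ⟶ U), σ.src p ≫ a = σ.src S ∧ σ.tgt p ≫ a = σ.tgt S ∧
        σ.src p ≫ b = σ.src S ∧ σ.tgt p ≫ b = σ.tgt S ∧ a ≫ H = h ∧ b ≫ H = h'

variable {σ : Susp C D} {p : D} (hF : σ.HFill p)

namespace Susp.HFill

/-- The composition operation. -/
noncomputable def cop : σ.sus.obj p ⟶ σ.add p (σ.sus.obj p) :=
  (hF.edges _ (σ.src p ≫ σ.inl _ _) (σ.tgt p ≫ σ.inr _ _)).choose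

theorem src_cop : σ.src p ≫ hF.cop = σ.src p ≫ σ.inl _ _ :=
  (hF.edges _ (σ.src p ≫ σ.inl p (σ.sus.obj p)) (σ.tgt p ≫ σ.inr _ _)).choose_spec.1

theorem tgt_cop : σ.tgt p ≫ hF.cop = σ.tgt p ≫ σ.inr _ _ :=
  (hF.edges _ (σ.src p ≫ σ.inl p (σ.sus.obj p)) (σ.tgt p ≫ σ.inr _ _)).choose_spec.2

/-- The degenerate edge. -/
noncomputable def deg : σ.sus.obj p ⟶ σ.pt := (hF.edges σ.pt (𝟙 _) (𝟙 _)).choose

theorem src_deg : σ.src p ≫ hF.deg = 𝟙 _ := (hF.edges σ.pt (𝟙 _) (𝟙 _)).choose_spec.1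

theorem tgt_deg : σ.tgt p ≫ hF.deg = 𝟙 _ := (hF.edges σ.pt (𝟙 _) (𝟙 _)).choose_spec.2

/-- The swap of the ends. -/
noncomputable def flipE : σ.sus.obj p ⟶ σ.sus.obj p :=
  (hF.edges _ (σ.tgt p) (σ.src p)).choose

theorem src_flipE : σ.src p ≫ hF.flipE = σ.tgt p :=
  (hF.edges _ (σ.tgt p) (σ.src p)).choose_spec.1

theorem tgt_flipE : σ.tgt p ≫ hF.flipE = σ.src p :=
  (hF.edges _ (σ.tgt p) (σ.src p)).choose_spec.2

end Susp.HFill

variable {X : Psh C}

/-- An edge of `X` from `a` to `b`. -/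
def Edge (σ : Susp C D) (p : D) (X : Psh C) (a b : X.obj (op σ.pt)) : Type u :=
  {u : X.obj (op (σ.sus.obj p)) // res X (σ.src p) u = a ∧ res X (σ.tgt p) u = b}

/-- Two edges bounded by a suspended cell. -/
def Htp {a b : X.obj (op σ.pt)} (u v : Edge σ p X a b) : Prop :=
  ∃ (S : D) (h h' : σ.sus.obj p ⟶ σ.sus.obj S) (w : X.obj (op (σ.sus.obj S))),
    σ.src p ≫ h = σ.src S ∧ σ.tgt p ≫ h = σ.tgt S ∧ σ.src p ≫ h' = σ.src S ∧
      σ.tgt p ≫ h' = σ.tgt S ∧ res X h w = u.1 ∧ res X h' w = v.1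

/-- Edges modulo homotopy. -/
def EdgeCls (σ : Susp C D) (p : D) (X : Psh C) (a b : X.obj (op σ.pt)) : Type u :=
  Quot (Htp (σ := σ) (p := p) (X := X) (a := a) (b := b))

/-- The class of an edge. -/
def Edge.cls {a b : X.obj (op σ.pt)} (u : Edge σ p X a b) : EdgeCls σ p X a b := Quot.mk _ u

include hF in
/-- Parallel maps into an object give homotopic edges. -/
theorem cls_eq_of_parallel {a b : X.obj (op σ.pt)} (u v : Edge σ p X a b) {U : C}
    (z : X.obj (op U)) (h h' : σ.sus.obj p ⟶ U) (hu : res X h z = u.1) (hv : res X h' z = v.1)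
    (hs : σ.src p ≫ h = σ.src p ≫ h') (ht : σ.tgt p ≫ h = σ.tgt p ≫ h') : u.cls = v.cls := by
  obtain ⟨S, m, m', H, h1, h2, h3, h4, h5, h6⟩ := hF.fill U h h' hs ht
  refine Quot.sound ⟨S, m, m', res X H z, h1, h2, h3, h4, ?_, ?_⟩
  · rw [← res_comp, h5, hu]
  · rw [← res_comp, h6, hv]

theorem edge_ext {a b : X.obj (op σ.pt)} {u v : Edge σ p X a b} (h : u.1 = v.1) : u = v :=
  Subtype.ext h

theorem desc_left {S : D} {T U : C} (h : σ.sus.obj S ⟶ U) (g : T ⟶ U)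
    (e : σ.tgt S ≫ h = σ.v0 T ≫ g) :
    σ.inl S T ≫ (σ.existsDesc h g e).choose = h :=
  (σ.existsDesc h g e).choose_spec.1

theorem desc_right {S : D} {T U : C} (h : σ.sus.obj S ⟶ U) (g : T ⟶ U)
    (e : σ.tgt S ≫ h = σ.v0 T ≫ g) :
    σ.inr S T ≫ (σ.existsDesc h g e).choose = g :=
  (σ.existsDesc h g e).choose_spec.2

variable (hX : σ.Glues X)

theorem Edge.glue_cond {a b c : X.obj (op σ.pt)} (u : Edge σ p X a b) (v : Edge σ p X b c) :
    res X (σ.tgt p) u.1 = res X (σ.v0 (σ.sus.obj p)) v.1 := by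
  rw [σ.v0_sus, u.2.2, v.2.1]

/-- The glued pair. -/
noncomputable def Edge.pairUp {a b c : X.obj (op σ.pt)} (u : Edge σ p X a b) (v : Edge σ p X b c) :
    X.obj (op (σ.add p (σ.sus.obj p))) :=
  (hX p (σ.sus.obj p) u.1 v.1 (u.glue_cond v)).exists.choose

theorem Edge.pairUp_left {a b c : X.obj (op σ.pt)} (u : Edge σ p X a b) (v : Edge σ p X b c) :
    res X (σ.inl _ _) (u.pairUp hX v) = u.1 :=
  (hX p (σ.sus.obj p) u.1 v.1 (u.glue_cond v)).exists.choose_spec.1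

theorem Edge.pairUp_right {a b c : X.obj (op σ.pt)} (u : Edge σ p X a b) (v : Edge σ p X b c) :
    res X (σ.inr _ _) (u.pairUp hX v) = v.1 :=
  (hX p (σ.sus.obj p) u.1 v.1 (u.glue_cond v)).exists.choose_spec.2

/-- Composition of edges. -/
noncomputable def Edge.comp {a b c : X.obj (op σ.pt)} (u : Edge σ p X a b) (v : Edge σ p X b c) :
    Edge σ p X a c :=
  ⟨res X hF.cop (u.pairUp hX v),
    by rw [← res_comp, hF.src_cop, res_comp, Edge.pairUp_left]; exact u.2.1,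
    by rw [← res_comp, hF.tgt_cop, res_comp, Edge.pairUp_right]; exact v.2.2⟩

theorem Edge.res_pairUp {a b c : X.obj (op σ.pt)} (u : Edge σ p X a b) (v : Edge σ p X b c)
    {U : C} (z : X.obj (op U)) (m : σ.add p (σ.sus.obj p) ⟶ U)
    (hl : res X (σ.inl _ _ ≫ m) z = u.1) (hr : res X (σ.inr _ _ ≫ m) z = v.1) :
    res X m z = u.pairUp hX v :=
  (hX p (σ.sus.obj p) u.1 v.1 (u.glue_cond v)).unique
    ⟨(res_comp X _ _ _).symm.trans hl, (res_comp X _ _ _).symm.trans hr⟩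
    ⟨Edge.pairUp_left hX u v, Edge.pairUp_right hX u v⟩

theorem Edge.comp_congr_left {a b c : X.obj (op σ.pt)} {u u' : Edge σ p X a b} (h : Htp u u')
    (v : Edge σ p X b c) : (u.comp hF hX v).cls = (u'.comp hF hX v).cls := by
  obtain ⟨S, m, m', w, h1, h2, h3, h4, h5, h6⟩ := h
  have e0 : res X (σ.tgt S) w = res X (σ.v0 (σ.sus.obj p)) v.1 := by
    rw [← h2, res_comp, h5, σ.v0_sus, u.2.2, v.2.1]
  obtain ⟨z, ⟨z1, z2⟩, -⟩ := hX S (σ.sus.obj p) w v.1 e0
  have d : ∀ k : σ.sus.obj p ⟶ σ.sus.obj S, σ.tgt p ≫ k = σ.tgt S →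
      σ.tgt p ≫ k ≫ σ.inl S (σ.sus.obj p) = σ.v0 _ ≫ σ.inr S (σ.sus.obj p) := by
    intro k hk
    rw [← Category.assoc, hk, σ.glue]
  obtain ⟨M, lM, rM⟩ := σ.existsDesc _ _ (d m h2)
  obtain ⟨M', lM', rM'⟩ := σ.existsDesc _ _ (d m' h4)
  have hM : res X M z = u.pairUp hX v := by
    refine Edge.res_pairUp hX u v z M ?_ ?_
    · rw [lM, res_comp, z1, h5]
    · rw [rM, z2]
  have hM' : res X M' z = u'.pairUp hX v := by
    refine Edge.res_pairUp hX u' v z M' ?_ ?_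
    · rw [lM', res_comp, z1, h6]
    · rw [rM', z2]
  refine cls_eq_of_parallel hF _ _ z (hF.cop ≫ M) (hF.cop ≫ M')
    (by rw [res_comp, hM]; rfl) (by rw [res_comp, hM']; rfl) ?_ ?_
  · rw [← Category.assoc, hF.src_cop, Category.assoc, lM, ← Category.assoc (σ.src p) hF.cop,
      hF.src_cop, Category.assoc, lM', ← Category.assoc, h1, ← Category.assoc, h3]
  · rw [← Category.assoc, hF.tgt_cop, Category.assoc, rM,
      ← Category.assoc (σ.tgt p) hF.cop, hF.tgt_cop, Category.assoc, rM']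

theorem Edge.comp_congr_right {a b c : X.obj (op σ.pt)} (u : Edge σ p X a b)
    {v v' : Edge σ p X b c} (h : Htp v v') : (u.comp hF hX v).cls = (u.comp hF hX v').cls := by
  obtain ⟨S, m, m', w, h1, h2, h3, h4, h5, h6⟩ := h
  have e0 : res X (σ.tgt p) u.1 = res X (σ.v0 (σ.sus.obj S)) w := by
    rw [σ.v0_sus, ← h1, res_comp, h5, u.2.2, v.2.1]
  obtain ⟨z, ⟨z1, z2⟩, -⟩ := hX p (σ.sus.obj S) u.1 w e0
  have d : ∀ k : σ.sus.obj p ⟶ σ.sus.obj S, σ.src p ≫ k = σ.src S →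
      σ.tgt p ≫ σ.inl p (σ.sus.obj S) = σ.v0 _ ≫ k ≫ σ.inr p (σ.sus.obj S) := by
    intro k hk
    rw [σ.glue, σ.v0_sus, σ.v0_sus, ← Category.assoc, hk]
  obtain ⟨M, lM, rM⟩ := σ.existsDesc _ _ (d m h1)
  obtain ⟨M', lM', rM'⟩ := σ.existsDesc _ _ (d m' h3)
  have hM : res X M z = u.pairUp hX v := by
    refine Edge.res_pairUp hX u v z M ?_ ?_
    · rw [lM, z1]
    · rw [rM, res_comp, z2, h5]
  have hM' : res X M' z = u.pairUp hX v' := by
    refine Edge.res_pairUp hX u v' z M' ?_ ?_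
    · rw [lM', z1]
    · rw [rM', res_comp, z2, h6]
  refine cls_eq_of_parallel hF _ _ z (hF.cop ≫ M) (hF.cop ≫ M')
    (by rw [res_comp, hM]; rfl) (by rw [res_comp, hM']; rfl) ?_ ?_
  · rw [← Category.assoc, hF.src_cop, Category.assoc, lM,
      ← Category.assoc (σ.src p) hF.cop, hF.src_cop, Category.assoc, lM']
  · rw [← Category.assoc, hF.tgt_cop, Category.assoc, rM,
      ← Category.assoc (σ.tgt p) hF.cop, hF.tgt_cop, Category.assoc, rM',
      ← Category.assoc, h2, ← Category.assoc, h4]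

/-- Composition of classes. -/
noncomputable def clsComp {a b c : X.obj (op σ.pt)} :
    EdgeCls σ p X a b → EdgeCls σ p X b c → EdgeCls σ p X a c :=
  fun x y => Quot.liftOn x
    (fun u => Quot.liftOn y (fun v => (u.comp hF hX v).cls) fun _ _ h => u.comp_congr_right hF hX h)
    fun u u' h => by
      induction y using Quot.ind with
      | _ v => exact Edge.comp_congr_left hF hX h v

theorem Edge.comp_assoc {a b c d : X.obj (op σ.pt)} (u : Edge σ p X a b) (v : Edge σ p X b c)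
    (w : Edge σ p X c d) :
    ((u.comp hF hX v).comp hF hX w).cls = (u.comp hF hX (v.comp hF hX w)).cls := by
  let zvw := v.pairUp hX w
  have e0 : res X (σ.tgt p) u.1 = res X (σ.v0 (σ.add p (σ.sus.obj p))) zvw := by
    rw [σ.v0_add, res_comp, Edge.pairUp_left, u.2.2, v.2.1]
  obtain ⟨z, ⟨z1, z2⟩, -⟩ := hX p _ u.1 zvw e0
  let P := σ.sus.obj p
  let l := σ.inl p (σ.add p P)
  let r := σ.inr p (σ.add p P)
  have dA : σ.tgt p ≫ l = σ.v0 P ≫ hF.cop ≫ r := by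
    rw [σ.v0_sus, ← Category.assoc, hF.src_cop, ← σ.v0_add, σ.glue]
  obtain ⟨A, lA, rA⟩ := σ.existsDesc l (hF.cop ≫ r) dA
  have dQ : σ.tgt p ≫ l = σ.v0 P ≫ σ.inl p P ≫ r := by
    rw [σ.v0_sus, ← Category.assoc, ← σ.v0_add, σ.glue]
  obtain ⟨Q, lQ, rQ⟩ := σ.existsDesc l (σ.inl p P ≫ r) dQ
  have dB : σ.tgt p ≫ hF.cop ≫ Q = σ.v0 P ≫ σ.inr p P ≫ r := by
    rw [← Category.assoc, hF.tgt_cop, Category.assoc, rQ, σ.v0_sus,
      ← Category.assoc (σ.tgt p), σ.glue, σ.v0_sus]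
    rw [Category.assoc]
  obtain ⟨B, lB, rB⟩ := σ.existsDesc (hF.cop ≫ Q) (σ.inr p P ≫ r) dB
  have hA : res X A z = u.pairUp hX (v.comp hF hX w) := by
    refine Edge.res_pairUp hX _ _ z A ?_ ?_
    · rw [lA, z1]
    · rw [rA, res_comp, z2]; rfl
  have hQ : res X Q z = u.pairUp hX v := by
    refine Edge.res_pairUp hX _ _ z Q ?_ ?_
    · rw [lQ, z1]
    · rw [rQ, res_comp, z2, Edge.pairUp_left]
  have hB : res X B z = (u.comp hF hX v).pairUp hX w := by
    refine Edge.res_pairUp hX _ _ z B ?_ ?_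
    · rw [lB, res_comp, hQ]; rfl
    · rw [rB, res_comp, z2, Edge.pairUp_right]
  refine cls_eq_of_parallel hF _ _ z (hF.cop ≫ B) (hF.cop ≫ A)
    (by rw [res_comp, hB]; rfl) (by rw [res_comp, hA]; rfl) ?_ ?_
  · rw [← Category.assoc, hF.src_cop, Category.assoc, lB, ← Category.assoc (σ.src p) hF.cop Q,
      hF.src_cop, Category.assoc, lQ, ← Category.assoc (σ.src p) hF.cop A, hF.src_cop,
      Category.assoc, lA]
  · rw [← Category.assoc, hF.tgt_cop, Category.assoc, rB,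
      ← Category.assoc (σ.tgt p) hF.cop A, hF.tgt_cop, Category.assoc, rA,
      ← Category.assoc (σ.tgt p) hF.cop r, hF.tgt_cop, Category.assoc]

/-- The degenerate edge at a point. -/
noncomputable def idEdge (a : X.obj (op σ.pt)) : Edge σ p X a a :=
  ⟨res X hF.deg a, by rw [← res_comp, hF.src_deg, res_id], by rw [← res_comp, hF.tgt_deg, res_id]⟩

/-- The reversed edge. -/
noncomputable def Edge.rev {a b : X.obj (op σ.pt)} (u : Edge σ p X a b) : Edge σ p X b a :=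
  ⟨res X hF.flipE u.1, by rw [← res_comp, hF.src_flipE]; exact u.2.2,
    by rw [← res_comp, hF.tgt_flipE]; exact u.2.1⟩

theorem Edge.id_comp {a b : X.obj (op σ.pt)} (u : Edge σ p X a b) :
    ((idEdge hF a).comp hF hX u).cls = u.cls := by
  have d : σ.tgt p ≫ hF.deg ≫ σ.src p = σ.v0 (σ.sus.obj p) ≫ 𝟙 _ := by
    rw [← Category.assoc, hF.tgt_deg, Category.id_comp, Category.comp_id, σ.v0_sus]
  obtain ⟨M, lM, rM⟩ := σ.existsDesc (hF.deg ≫ σ.src p) (𝟙 _) d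
  have hM : res X M u.1 = (idEdge hF a).pairUp hX u := by
    refine Edge.res_pairUp hX _ _ u.1 M ?_ ?_
    · rw [lM, res_comp, u.2.1]; rfl
    · rw [rM, res_id]
  refine cls_eq_of_parallel hF _ _ u.1 (hF.cop ≫ M) (𝟙 _)
    (by rw [res_comp, hM]; rfl) (res_id X _) ?_ ?_
  · rw [← Category.assoc, hF.src_cop, Category.assoc, lM, ← Category.assoc, hF.src_deg,
      Category.id_comp, Category.comp_id]
  · rw [← Category.assoc, hF.tgt_cop, Category.assoc, rM]

theorem Edge.comp_id {a b : X.obj (op σ.pt)} (u : Edge σ p X a b) :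
    (u.comp hF hX (idEdge hF b)).cls = u.cls := by
  have d : σ.tgt p ≫ 𝟙 _ = σ.v0 (σ.sus.obj p) ≫ hF.deg ≫ σ.tgt p := by
    rw [σ.v0_sus, ← Category.assoc, hF.src_deg, Category.id_comp, Category.comp_id]
  obtain ⟨M, lM, rM⟩ := σ.existsDesc (𝟙 _) (hF.deg ≫ σ.tgt p) d
  have hM : res X M u.1 = u.pairUp hX (idEdge hF b) := by
    refine Edge.res_pairUp hX _ _ u.1 M ?_ ?_
    · rw [lM, res_id]
    · rw [rM, res_comp, u.2.2]; rfl
  refine cls_eq_of_parallel hF _ _ u.1 (hF.cop ≫ M) (𝟙 _)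
    (by rw [res_comp, hM]; rfl) (res_id X _) ?_ ?_
  · rw [← Category.assoc, hF.src_cop, Category.assoc, lM]
  · rw [← Category.assoc, hF.tgt_cop, Category.assoc, rM, ← Category.assoc, hF.tgt_deg,
      Category.id_comp, Category.comp_id]

theorem Edge.rev_comp {a b : X.obj (op σ.pt)} (u : Edge σ p X a b) :
    ((u.rev hF).comp hF hX u).cls = (idEdge hF b).cls := by
  have d : σ.tgt p ≫ hF.flipE = σ.v0 (σ.sus.obj p) ≫ 𝟙 _ := by
    rw [hF.tgt_flipE, Category.comp_id, σ.v0_sus]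
  obtain ⟨M, lM, rM⟩ := σ.existsDesc hF.flipE (𝟙 _) d
  have hM : res X M u.1 = (u.rev hF).pairUp hX u := by
    refine Edge.res_pairUp hX _ _ u.1 M ?_ ?_
    · rw [lM]; rfl
    · rw [rM, res_id]
  refine cls_eq_of_parallel hF _ _ u.1 (hF.cop ≫ M) (hF.deg ≫ σ.tgt p)
    (by rw [res_comp, hM]; rfl) (by rw [res_comp, u.2.2]; rfl) ?_ ?_
  · rw [← Category.assoc, hF.src_cop, Category.assoc, lM, hF.src_flipE, ← Category.assoc,
      hF.src_deg, Category.id_comp]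
  · rw [← Category.assoc, hF.tgt_cop, Category.assoc, rM, Category.comp_id,
      ← Category.assoc, hF.tgt_deg, Category.id_comp]

theorem Edge.comp_rev {a b : X.obj (op σ.pt)} (u : Edge σ p X a b) :
    (u.comp hF hX (u.rev hF)).cls = (idEdge hF a).cls := by
  have d : σ.tgt p ≫ 𝟙 _ = σ.v0 (σ.sus.obj p) ≫ hF.flipE := by
    rw [σ.v0_sus, hF.src_flipE, Category.comp_id]
  obtain ⟨M, lM, rM⟩ := σ.existsDesc (𝟙 _) hF.flipE d
  have hM : res X M u.1 = u.pairUp hX (u.rev hF) := by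
    refine Edge.res_pairUp hX _ _ u.1 M ?_ ?_
    · rw [lM, res_id]
    · rw [rM]; rfl
  refine cls_eq_of_parallel hF _ _ u.1 (hF.cop ≫ M) (hF.deg ≫ σ.src p)
    (by rw [res_comp, hM]; rfl) (by rw [res_comp, u.2.1]; rfl) ?_ ?_
  · rw [← Category.assoc, hF.src_cop, Category.assoc, lM, Category.comp_id,
      ← Category.assoc, hF.src_deg, Category.id_comp]
  · rw [← Category.assoc, hF.tgt_cop, Category.assoc, rM, hF.tgt_flipE, ← Category.assoc,
      hF.tgt_deg, Category.id_comp]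

end Vale.Agent.P259.Elem
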