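import Vale.Agent.P259.Elem.Groupoid

/-!
# P259, module C: the fundamental groupoid of a model, and maps of edges
-/

universe u

open CategoryTheory Opposite

namespace Vale.Agent.P259.Elem

open Vale.Agent.P259.Cat

variable {C D : Type u} [SmallCategory C] [SmallCategory D] {σ : Susp C D} {p : D}

/-- Points of a model, as objects of its fundamental groupoid. -/
@[ext]
structure Pi (hF : σ.HFill p) {X : Psh C} (hX : σ.Glues X) : Type u where
  pt : X.obj (op σ.pt)

variable (hF : σ.HFill p) {X : Psh C} (hX : σ.Glues X)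

theorem clsComp_mk {a b c : X.obj (op σ.pt)} (u : Edge σ p X a b) (v : Edge σ p X b c) :
    clsComp hF hX u.cls v.cls = (u.comp hF hX v).cls := rfl

noncomputable instance : Groupoid.{u} (Pi hF hX) where
  Hom a b := EdgeCls σ p X a.pt b.pt
  id a := (idEdge hF a.pt).cls
  comp f g := clsComp hF hX f g
  id_comp f := by
    induction f using Quot.ind with
    | _ u => exact u.id_comp hF hX
  comp_id f := by
    induction f using Quot.ind with
    | _ u => exact u.comp_id hF hX
  assoc f g h := by
    induction f using Quot.ind with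
    | _ u =>
      induction g using Quot.ind with
      | _ v =>
        induction h using Quot.ind with
        | _ w => exact u.comp_assoc hF hX v w
  inv {a b} f := Quot.liftOn f (fun u => (u.rev hF).cls) fun u u' h => by
    have hh : u.cls = u'.cls := Quot.sound h
    have h1 : ∀ w : Edge σ p X a.pt b.pt, clsComp hF hX (w.rev hF).cls w.cls = (idEdge hF b.pt).cls :=
      fun w => w.rev_comp hF hX
    have h2 : clsComp hF hX u.cls (u'.rev hF).cls = (idEdge hF a.pt).cls := by
      rw [hh]; exact u'.comp_rev hF hX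
    calc (u.rev hF).cls = clsComp hF hX (u.rev hF).cls (idEdge hF a.pt).cls :=
          ((u.rev hF).comp_id hF hX).symm
      _ = clsComp hF hX (u.rev hF).cls (clsComp hF hX u.cls (u'.rev hF).cls) := by rw [h2]
      _ = clsComp hF hX (clsComp hF hX (u.rev hF).cls u.cls) (u'.rev hF).cls :=
          (Edge.comp_assoc hF hX (u.rev hF) u (u'.rev hF)).symm
      _ = (u'.rev hF).cls := by rw [h1 u]; exact (u'.rev hF).id_comp hF hX
  inv_comp f := by
    induction f using Quot.ind with
    | _ u => exact u.rev_comp hF hX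
  comp_inv f := by
    induction f using Quot.ind with
    | _ u => exact u.comp_rev hF hX

/-- The arrow of an edge. -/
def Edge.arrow {a b : X.obj (op σ.pt)} (u : Edge σ p X a b) :
    (⟨a⟩ : Pi hF hX) ⟶ ⟨b⟩ := u.cls

theorem Edge.arrow_comp {a b c : X.obj (op σ.pt)} (u : Edge σ p X a b) (v : Edge σ p X b c) :
    (u.comp hF hX v).arrow hF hX = u.arrow hF hX ≫ v.arrow hF hX := rfl

variable {Y : Psh C}

/-- The image of an edge, with the ends renamed. -/
def Edge.mapTo (φ : ShHom X Y) {a b : X.obj (op σ.pt)} {a' b' : Y.obj (op σ.pt)}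
    (ha : φ.app _ a = a') (hb : φ.app _ b = b') (u : Edge σ p X a b) : Edge σ p Y a' b' :=
  ⟨φ.app _ u.1,
    ((φ.nat (σ.src p).op u.1).symm.trans (congrArg (φ.app _) u.2.1)).trans ha,
    ((φ.nat (σ.tgt p).op u.1).symm.trans (congrArg (φ.app _) u.2.2)).trans hb⟩

theorem Edge.mapTo_htp (φ : ShHom X Y) {a b : X.obj (op σ.pt)} {a' b' : Y.obj (op σ.pt)}
    (ha : φ.app _ a = a') (hb : φ.app _ b = b') {u v : Edge σ p X a b} (h : u.cls = v.cls) :
    (u.mapTo φ ha hb).cls = (v.mapTo φ ha hb).cls := by
  exact congrArg (fun x : EdgeCls σ p X a b =>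
    Quot.liftOn x (fun u => (u.mapTo φ ha hb).cls) (fun s t hst => by
      obtain ⟨S, m, m', z, h1, h2, h3, h4, h5, h6⟩ := hst
      refine Quot.sound ⟨S, m, m', φ.app _ z, h1, h2, h3, h4, ?_, ?_⟩
      · exact (φ.nat m.op z).symm.trans (congrArg (φ.app _) h5)
      · exact (φ.nat m'.op z).symm.trans (congrArg (φ.app _) h6))) h

theorem Edge.mapTo_comp (hY : σ.Glues Y) (φ : ShHom X Y) {a b c : X.obj (op σ.pt)}
    {a' b' c' : Y.obj (op σ.pt)} (ha : φ.app _ a = a') (hb : φ.app _ b = b')
    (hc : φ.app _ c = c') (u : Edge σ p X a b) (v : Edge σ p X b c) :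
    (u.comp hF hX v).mapTo φ ha hc
      = (u.mapTo φ ha hb).comp hF hY (v.mapTo φ hb hc) := by
  refine Subtype.ext ((φ.nat hF.cop.op (u.pairUp hX v)).trans (congrArg (res Y hF.cop) ?_))
  refine (Edge.res_pairUp hY (u.mapTo φ ha hb) (v.mapTo φ hb hc) (φ.app _ (u.pairUp hX v)) (𝟙 _) ?_ ?_
    |> Eq.trans (res_id Y _).symm)
  · rw [Category.comp_id]
    exact (φ.nat (σ.inl _ _).op _).symm.trans (congrArg (φ.app _) (Edge.pairUp_left hX u v))
  · rw [Category.comp_id]
    exact (φ.nat (σ.inr _ _).op _).symm.trans (congrArg (φ.app _) (Edge.pairUp_right hX u v))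

end Vale.Agent.P259.Elem
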