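import Vale.Agent.P259.Elem.Commute

/-!
# P259, module C: chains of slots and the commutation of loops
-/

universe u

open CategoryTheory Opposite

namespace Vale.Agent.P259.Elem

open Vale.Agent.P259.Cat

variable {C D D' : Type u} [SmallCategory C] [SmallCategory D] [SmallCategory D']
  {σ : Susp C D} {τ : Susp D D'} {q : D'} {X : Psh C} (hX : σ.Glues X)
  {x y z w : X.obj (op σ.pt)}

/-- A marked element marked at the initial vertex. -/
structure Chain (σ : Susp C D) (X : Psh C) (x y : X.obj (op σ.pt)) : Type u where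
  M : Marked σ X x y
  std : M.s = σ.v0 M.U

/-- A single piece. -/
abbrev Chain.one {P : D} (v : (σ.homPsh X x y).obj (op P)) : Chain σ X x y :=
  ⟨⟨σ.sus.obj P, v.1, σ.src P, σ.tgt P, v.2.1, v.2.2⟩, (σ.v0_sus P).symm⟩

theorem cons_cond {P : D} (v : (σ.homPsh X x y).obj (op P)) (K : Chain σ X y z) :
    res X (σ.tgt P) v.1 = res X (σ.v0 K.M.U) K.M.z := by
  rw [← K.std, K.M.hs]
  exact v.2.2

/-- Add a piece in front. -/
noncomputable abbrev Chain.cons {P : D} (v : (σ.homPsh X x y).obj (op P)) (K : Chain σ X y z) :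
    Chain σ X x z :=
  ⟨⟨σ.add P K.M.U, (hX P K.M.U v.1 K.M.z (cons_cond v K)).exists.choose,
    σ.src P ≫ σ.inl P K.M.U, K.M.t ≫ σ.inr P K.M.U,
    by rw [res_comp, (hX P K.M.U v.1 K.M.z (cons_cond v K)).exists.choose_spec.1]; exact v.2.1,
    by rw [res_comp, (hX P K.M.U v.1 K.M.z (cons_cond v K)).exists.choose_spec.2]; exact K.M.ht⟩,
    (σ.v0_add P K.M.U).symm⟩

theorem Chain.cons_left {P : D} (v : (σ.homPsh X x y).obj (op P)) (K : Chain σ X y z) :
    res X (σ.inl P K.M.U) (Chain.cons hX v K).M.z = v.1 :=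
  (hX P K.M.U v.1 K.M.z (cons_cond v K)).exists.choose_spec.1

theorem Chain.cons_right {P : D} (v : (σ.homPsh X x y).obj (op P)) (K : Chain σ X y z) :
    res X (σ.inr P K.M.U) (Chain.cons hX v K).M.z = K.M.z :=
  (hX P K.M.U v.1 K.M.z (cons_cond v K)).exists.choose_spec.2

theorem Chain.cons_unique {P : D} (v : (σ.homPsh X x y).obj (op P)) (K : Chain σ X y z)
    {U : C} (e : X.obj (op U)) (k : σ.add P K.M.U ⟶ U)
    (h1 : res X (σ.inl P K.M.U ≫ k) e = v.1) (h2 : res X (σ.inr P K.M.U ≫ k) e = K.M.z) :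
    res X k e = (Chain.cons hX v K).M.z :=
  (hX P K.M.U v.1 K.M.z (cons_cond v K)).unique
    ⟨(res_comp X _ _ _).symm.trans h1, (res_comp X _ _ _).symm.trans h2⟩
    ⟨Chain.cons_left hX v K, Chain.cons_right hX v K⟩

namespace Marked

/-- Identity. -/
abbrev Hom.id (M : Marked σ X x y) : Hom M M :=
  ⟨𝟙 _, Category.comp_id _, Category.comp_id _, res_id X _⟩

/-- Composition. -/
abbrev Hom.comp {M M' M'' : Marked σ X x y} (N : Hom M M') (N' : Hom M' M'') : Hom M M'' :=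
  ⟨N.n ≫ N'.n, by rw [← Category.assoc, N.s_n, N'.s_n], by rw [← Category.assoc, N.t_n, N'.t_n],
    by rw [res_comp, N'.res_n, N.res_n]⟩

end Marked

theorem consHom_cond {P P' : D} (φ : P ⟶ P') {K K' : Chain σ X y z} (N : Marked.Hom K.M K'.M) :
    σ.tgt P ≫ σ.sus.map φ ≫ σ.inl P' K'.M.U
      = σ.v0 K.M.U ≫ N.n ≫ σ.inr P' K'.M.U := by
  rw [← Category.assoc, σ.tgt_map, σ.glue, ← K'.std, ← N.s_n, K.std, Category.assoc]

/-- The map acting on the first piece and on the rest. -/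
noncomputable def consMap {P P' : D} (φ : P ⟶ P') {K K' : Chain σ X y z}
    (N : Marked.Hom K.M K'.M) : σ.add P K.M.U ⟶ σ.add P' K'.M.U :=
  (σ.existsDesc _ _ (consHom_cond φ N)).choose

theorem consMap_left {P P' : D} (φ : P ⟶ P') {K K' : Chain σ X y z}
    (N : Marked.Hom K.M K'.M) :
    σ.inl P K.M.U ≫ consMap φ N = σ.sus.map φ ≫ σ.inl P' K'.M.U :=
  (σ.existsDesc _ _ (consHom_cond φ N)).choose_spec.1

theorem consMap_right {P P' : D} (φ : P ⟶ P') {K K' : Chain σ X y z}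
    (N : Marked.Hom K.M K'.M) :
    σ.inr P K.M.U ≫ consMap φ N = N.n ≫ σ.inr P' K'.M.U :=
  (σ.existsDesc _ _ (consHom_cond φ N)).choose_spec.2

/-- Act on the first piece and on the rest. -/
noncomputable def consHom {P P' : D} (φ : P ⟶ P') {v : (σ.homPsh X x y).obj (op P)}
    {v' : (σ.homPsh X x y).obj (op P')} (hv : res X (σ.sus.map φ) v'.1 = v.1)
    {K K' : Chain σ X y z} (N : Marked.Hom K.M K'.M) :
    Marked.Hom (Chain.cons hX v K).M (Chain.cons hX v' K').M :=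
  ⟨(σ.existsDesc _ _ (consHom_cond φ N)).choose,
    by
      show (σ.src P ≫ σ.inl P K.M.U) ≫ _ = σ.src P' ≫ σ.inl P' K'.M.U
      rw [Category.assoc, (σ.existsDesc _ _ (consHom_cond φ N)).choose_spec.1, ← Category.assoc,
        σ.src_map],
    by
      show (K.M.t ≫ σ.inr P K.M.U) ≫ _ = K'.M.t ≫ σ.inr P' K'.M.U
      rw [Category.assoc, (σ.existsDesc _ _ (consHom_cond φ N)).choose_spec.2, ← Category.assoc,
        N.t_n],
    by
      refine Chain.cons_unique hX v K _ _ ?_ ?_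
      · rw [(σ.existsDesc _ _ (consHom_cond φ N)).choose_spec.1, res_comp, Chain.cons_left, hv]
      · rw [(σ.existsDesc _ _ (consHom_cond φ N)).choose_spec.2, res_comp, Chain.cons_right,
          N.res_n]⟩

theorem consHom_left {P P' : D} (φ : P ⟶ P') {v : (σ.homPsh X x y).obj (op P)}
    {v' : (σ.homPsh X x y).obj (op P')} (hv : res X (σ.sus.map φ) v'.1 = v.1)
    {K K' : Chain σ X y z} (N : Marked.Hom K.M K'.M) :
    σ.inl P K.M.U ≫ (consHom hX φ hv N).n = σ.sus.map φ ≫ σ.inl P' K'.M.U :=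
  (σ.existsDesc _ _ (consHom_cond φ N)).choose_spec.1

theorem consHom_right {P P' : D} (φ : P ⟶ P') {v : (σ.homPsh X x y).obj (op P)}
    {v' : (σ.homPsh X x y).obj (op P')} (hv : res X (σ.sus.map φ) v'.1 = v.1)
    {K K' : Chain σ X y z} (N : Marked.Hom K.M K'.M) :
    σ.inr P K.M.U ≫ (consHom hX φ hv N).n = N.n ≫ σ.inr P' K'.M.U :=
  (σ.existsDesc _ _ (consHom_cond φ N)).choose_spec.2

theorem consMap_square {P₀ P₁ P₂ P₃ : D} {φ₁ : P₀ ⟶ P₁} {φ₂ : P₁ ⟶ P₃} {ψ₁ : P₀ ⟶ P₂}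
    {ψ₂ : P₂ ⟶ P₃} (hφ : φ₁ ≫ φ₂ = ψ₁ ≫ ψ₂)
    {K₀ K₁ K₂ K₃ : Chain σ X y z} {N₁ : Marked.Hom K₀.M K₁.M} {N₂ : Marked.Hom K₁.M K₃.M}
    {L₁ : Marked.Hom K₀.M K₂.M} {L₂ : Marked.Hom K₂.M K₃.M} (hN : N₁.n ≫ N₂.n = L₁.n ≫ L₂.n) :
    consMap φ₁ N₁ ≫ consMap φ₂ N₂ = consMap ψ₁ L₁ ≫ consMap ψ₂ L₂ := by
  refine σ.descUnique (S := P₀) (T := K₀.M.U) _ _ ?_ ?_
  · rw [← Category.assoc, ← Category.assoc, consMap_left, consMap_left, Category.assoc,
      Category.assoc, consMap_left, consMap_left, ← Category.assoc, ← Category.assoc,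
      ← σ.sus.map_comp, ← σ.sus.map_comp, hφ]
  · rw [← Category.assoc, ← Category.assoc, consMap_right, consMap_right, Category.assoc,
      Category.assoc, consMap_right, consMap_right, ← Category.assoc, ← Category.assoc, hN]

variable (hT : σ.YonThin τ q) (hG : τ.HFill q) (hF : σ.HFill τ.pt)

include hF in
/-- Every marked element has a point. -/
theorem Marked.exists_pt (M : Marked σ X x y) : Nonempty (Marked.Pt τ M) :=
  let ⟨h, h1, h2⟩ := hF.edges M.U M.s M.t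
  ⟨⟨h, h1, h2⟩⟩

/-- A side of an edge one level up, as a map of pieces. -/
def edgeSide {g g' : (σ.homPsh X x y).obj (op τ.pt)} (H : Edge τ q (σ.homPsh X x y) g g') :
    Marked.Hom (Chain.one g).M (Chain.one (P := τ.sus.obj q) H.1).M ×
      Marked.Hom (Chain.one g').M (Chain.one (P := τ.sus.obj q) H.1).M :=
  (⟨σ.sus.map (τ.src q), σ.src_map _, σ.tgt_map _, congrArg Subtype.val H.2.1⟩,
    ⟨σ.sus.map (τ.tgt q), σ.src_map _, σ.tgt_map _, congrArg Subtype.val H.2.2⟩)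

variable {a b : X.obj (op σ.pt)} (hY : τ.Glues (σ.homPsh X a b))
  {f : (σ.homPsh X a b).obj (op τ.pt)}

/-- A loop in front of a chain. -/
noncomputable abbrev headShape (α : Edge τ q (σ.homPsh X a b) f f) (K : Chain σ X b b) :
    Shape σ X a b :=
  ⟨(Chain.cons hX f K).M, (Chain.cons hX (P := τ.sus.obj q) α.1 K).M,
    consHom hX (τ.src q) (congrArg Subtype.val α.2.1) (Marked.Hom.id K.M),
    consHom hX (τ.tgt q) (congrArg Subtype.val α.2.2) (Marked.Hom.id K.M)⟩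

/-- A loop after a piece. -/
noncomputable abbrev lastShape {P : D} (v : (σ.homPsh X a a).obj (op P))
    (β : Edge τ q (σ.homPsh X a b) f f) : Shape σ X a b :=
  ⟨(Chain.cons hX v (Chain.one f)).M, (Chain.cons hX v (Chain.one (P := τ.sus.obj q) β.1)).M,
    consHom hX (𝟙 P) (by rw [σ.sus.map_id]; exact res_id X _) (edgeSide β).1,
    consHom hX (𝟙 P) (by rw [σ.sus.map_id]; exact res_id X _) (edgeSide β).2⟩

/-- Being conjugate to the identity of loops, uniformly. -/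
def Conjugates (F : Edge τ q (σ.homPsh X a b) f f → Shape σ X a b)
    (A : Marked σ X a b) (hA : ∀ α, (F α).A = A) : Prop :=
  ∀ (P : Marked.Pt τ A) (g : (σ.homPsh X a b).obj (op τ.pt)) (_ : A.img P = g),
    ∃ ξ : (⟨g⟩ : Pi hG hY) ⟶ ⟨f⟩, ∀ α, ∀ (P' : Marked.Pt τ (F α).A) (hP' : (F α).A.img P' = g),
      HEq P' P → (F α).op' hT hG hY P' hP' ≫ ξ = ξ ≫ α.arrow hG hY

include hF in
theorem conj_base : Conjugates hT hG hY (fun α => baseShape α) (pointMarked f) (fun _ => rfl) := by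
  intro P g hP
  refine ⟨Marked.arr hT hG hY (pointMarked f) P (tautPt f) hP (tautPt_img f), fun α P' hP' e => ?_⟩
  cases e
  refine (Shape.op'_move hT hG hY (baseShape α) P (tautPt f) hP' (tautPt_img f)).trans ?_
  rw [baseShape_op]

/-- Pull a conjugation back along maps of shapes. -/
theorem conj_map {F F' : Edge τ q (σ.homPsh X a b) f f → Shape σ X a b}
    {A A' : Marked σ X a b} (hA : ∀ α, (F α).A = A) (hA' : ∀ α, (F' α).A = A')
    (N : Marked.Hom A A')
    (hN : ∀ α, ∃ (NA : Marked.Hom (F α).A (F' α).A) (NB : Marked.Hom (F α).B (F' α).B),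
      HEq NA N ∧ (F α).m0.n ≫ NB.n = NA.n ≫ (F' α).m0.n ∧
        (F α).m1.n ≫ NB.n = NA.n ≫ (F' α).m1.n)
    (h : Conjugates hT hG hY F' A' hA') : Conjugates hT hG hY F A hA := by
  intro P g hP
  obtain ⟨ξ, hξ⟩ := h (N.post.app (op τ.pt) P) g ((Marked.img_post N P).trans hP)
  refine ⟨ξ, fun α P' hP' e => ?_⟩
  obtain ⟨NA, NB, e', h0, h1⟩ := hN α
  rw [Shape.op'_map hT hG hY NA NB h0 h1 P' hP']
  refine hξ α _ _ ?_
  have key : ∀ (M M' : Marked σ X a b) (_ : M = A) (_ : M' = A') (L : Marked.Hom M M')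
      (_ : HEq L N) (R : Marked.Pt τ M) (_ : HEq R P),
      HEq (L.post.app (op τ.pt) R) (N.post.app (op τ.pt) P) := by
    intro M M' hM hM' L hL R hR
    subst hM hM'
    cases hL
    cases hR
    rfl
  exact key _ _ (hA α) (hA' α) NA e' P' e

include hF in
/-- Push a conjugation forward along maps of shapes, using one point of the source. -/
theorem conj_push {F F' : Edge τ q (σ.homPsh X a b) f f → Shape σ X a b}
    {A A' : Marked σ X a b} (hA : ∀ α, (F α).A = A) (hA' : ∀ α, (F' α).A = A')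
    (N : Marked.Hom A A')
    (hN : ∀ α, ∃ (NA : Marked.Hom (F α).A (F' α).A) (NB : Marked.Hom (F α).B (F' α).B),
      HEq NA N ∧ (F α).m0.n ≫ NB.n = NA.n ≫ (F' α).m0.n ∧
        (F α).m1.n ≫ NB.n = NA.n ≫ (F' α).m1.n)
    (h : Conjugates hT hG hY F A hA) : Conjugates hT hG hY F' A' hA' := by
  intro P g hP
  obtain ⟨R⟩ := A.exists_pt hF (τ := τ)
  obtain ⟨ξ, hξ⟩ := h R _ rfl
  refine ⟨Marked.arr hT hG hY A' P (N.post.app (op τ.pt) R) hP (Marked.img_post N R) ≫ ξ,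
    fun α P' hP' e => ?_⟩
  obtain ⟨NA, NB, e', h0, h1⟩ := hN α
  obtain rfl := hA α
  obtain rfl := hA' α
  cases e
  cases e'
  rw [← Category.assoc, Shape.op'_move hT hG hY (F' α) P' (NA.post.app (op τ.pt) R) hP'
      (Marked.img_post NA R), Category.assoc, Category.assoc,
    ← hξ α R rfl HEq.rfl, Shape.op'_map hT hG hY NA NB h0 h1 R rfl]

end Vale.Agent.P259.Elem
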