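import Vale.Agent.P259.Elem.Core

/-!
# P259, module C: systems of coefficients on a category of elements are constant

No operation on fibres is used: bijectivity of the transition maps follows from the maps swapping
the ends of the edge, and triviality from composites of edges and homotopies of parallel edges.
-/

universe u

open CategoryTheory Opposite

namespace Vale.Agent.P259.Elem

open Vale.Agent.P259.Cat

variable {C D : Type u} [SmallCategory C] [SmallCategory D] (σ : Susp C D) (p : D)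

/-- Any two points of a representable are joined by an edge. -/
def Susp.Edges : Prop :=
  ∀ (U : C) (a b : σ.pt ⟶ U), ∃ h : σ.sus.obj p ⟶ U, σ.src p ≫ h = a ∧ σ.tgt p ≫ h = b

/-- Simply connected: an edge between any two points, and parallel edges are homotopic. -/
structure Susp.SimplyConn (X : Psh C) : Prop where
  edge : ∀ a b : X.obj (op σ.pt), ∃ u, res X (σ.src p) u = a ∧ res X (σ.tgt p) u = b
  homotopic : ∀ u u' : X.obj (op (σ.sus.obj p)), res X (σ.src p) u = res X (σ.src p) u' →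
    res X (σ.tgt p) u = res X (σ.tgt p) u' →
    ∃ (W : C) (h h' : σ.sus.obj p ⟶ W) (w : X.obj (op W)), σ.src p ≫ h = σ.src p ≫ h' ∧
      σ.tgt p ≫ h = σ.tgt p ≫ h' ∧ res X h w = u ∧ res X h' w = u'

variable {X : Psh C}

/-- An arrow of the category of elements from a map. -/
def elHom {S T : C} {x : X.obj (op T)} {y : X.obj (op S)} (f : S ⟶ T) (h : res X f x = y) :
    (⟨op T, x⟩ : El X) ⟶ ⟨op S, y⟩ :=
  ⟨f.op, h⟩

theorem elHom_comp {R S T : C} {x : X.obj (op T)} {y : X.obj (op S)} {z : X.obj (op R)}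
    (f : S ⟶ T) (g : R ⟶ S) (h : res X f x = y) (h' : res X g y = z) :
    elHom f h ≫ elHom g h' = elHom (g ≫ f) (by rw [res_comp, h]; exact h') :=
  rfl

theorem elHom_congr {S T : C} {x : X.obj (op T)} {y : X.obj (op S)} {f f' : S ⟶ T}
    (e : f = f') (h : res X f x = y) : elHom f h = elHom f' (e ▸ h) := by
  subst e
  rfl

theorem bij_comp_of_eq {α β γ : Type u} {f : α → β} {g : β → γ} {k : α → γ}
    (e : ∀ z, g (f z) = k z) (h : Function.Bijective k) : Function.Bijective (g ∘ f) :=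
  (funext e : g ∘ f = k).symm ▸ h

/-- A system on the category of elements. -/
structure Sys (X : Psh C) : Type (u + 1) where
  obj : El X → Type u
  map : ∀ {e e' : El X}, (e ⟶ e') → obj e → obj e'
  map_comp : ∀ {e e' e'' : El X} (f : e ⟶ e') (g : e' ⟶ e'') x,
    map (f ≫ g) x = map g (map f x)
  /-- Maps that preserve the initial vertex act bijectively. -/
  bij : ∀ {e e' : El X} (f : e ⟶ e'), σ.v0 e'.pt.unop ≫ f.1.unop = σ.v0 e.pt.unop →
    Function.Bijective (map f)

variable {σ p} (L : Sys σ X)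

theorem Sys.map_map {R S T : C} {x : X.obj (op T)} {y : X.obj (op S)} {z : X.obj (op R)}
    (f : S ⟶ T) (g : R ⟶ S) (k : R ⟶ T) (e : g ≫ f = k) (h : res X f x = y)
    (h' : res X g y = z) (hk : res X k x = z) (w : L.obj ⟨op T, x⟩) :
    L.map (elHom g h') (L.map (elHom f h) w) = L.map (elHom k hk) w := by
  subst e
  rw [← L.map_comp, elHom_comp]

include L in
theorem Sys.bij_src (u : X.obj (op (σ.sus.obj p))) {a : X.obj (op σ.pt)}
    (h : res X (σ.src p) u = a) : Function.Bijective (L.map (elHom (σ.src p) h)) :=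
  L.bij _ (by
    show σ.v0 σ.pt ≫ σ.src p = σ.v0 (σ.sus.obj p)
    rw [σ.v0_pt, Category.id_comp, σ.v0_sus])

theorem Sys.bij_tgt (hE : σ.Edges p) (u : X.obj (op (σ.sus.obj p))) {b : X.obj (op σ.pt)}
    (h : res X (σ.tgt p) u = b) : Function.Bijective (L.map (elHom (σ.tgt p) h)) := by
  obtain ⟨ι, hs, ht⟩ := hE (σ.sus.obj p) (σ.tgt p) (σ.src p)
  have hcomp : ∀ w : X.obj (op (σ.sus.obj p)), Function.Bijective
      (L.map (elHom ι (rfl : res X ι (res X ι w) = _)) ∘
        L.map (elHom ι (rfl : res X ι w = res X ι w))) := by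
    intro w
    have hb := L.bij (elHom (ι ≫ ι) (res_comp X ι ι w))
      (show σ.v0 _ ≫ ι ≫ ι = σ.v0 _ by rw [σ.v0_sus, ← Category.assoc, hs, ht])
    exact bij_comp_of_eq (fun z => L.map_map ι ι (ι ≫ ι) rfl _ _ (res_comp X ι ι w) z) hb
  have hinj : ∀ w : X.obj (op (σ.sus.obj p)),
      Function.Injective (L.map (elHom ι (rfl : res X ι w = res X ι w))) :=
    fun w => (hcomp w).1.of_comp
  have hι : Function.Bijective (L.map (elHom ι (rfl : res X ι u = res X ι u))) := by
    refine ⟨hinj u, ?_⟩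
    intro z
    obtain ⟨y, hy⟩ := (hcomp u).2 (L.map (elHom ι (rfl : res X ι (res X ι u) = _)) z)
    exact ⟨y, hinj _ hy⟩
  have hh : res X (σ.src p) (res X ι u) = b := by rw [← res_comp, hs]; exact h
  have := (L.bij_src (res X ι u) hh).comp hι
  exact (funext fun z => L.map_map ι (σ.src p) (σ.tgt p) hs _ hh h z) ▸ this

theorem Sys.bij_vertex (hE : σ.Edges p) {T : C} (x : X.obj (op T)) (v : σ.pt ⟶ T)
    {b : X.obj (op σ.pt)} (h : res X v x = b) : Function.Bijective (L.map (elHom v h)) := by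
  obtain ⟨q, hs, ht⟩ := hE T (σ.v0 T) v
  have h1 : res X (σ.src p) (res X q x) = res X (σ.v0 T) x := by rw [← res_comp, hs]
  have h2 : res X (σ.tgt p) (res X q x) = b := by rw [← res_comp, ht]; exact h
  have hb : Function.Bijective
      (L.map (elHom (σ.src p) h1) ∘ L.map (elHom q (rfl : res X q x = res X q x))) :=
    bij_comp_of_eq (fun z => L.map_map q (σ.src p) (σ.v0 T) hs rfl h1 rfl z) <|
      L.bij (elHom (σ.v0 T) rfl)
        (show σ.v0 σ.pt ≫ σ.v0 T = σ.v0 T by rw [σ.v0_pt, Category.id_comp])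
  have hq := ((L.bij_src _ h1).of_comp_iff' _).1 hb
  exact (funext fun z => L.map_map q (σ.tgt p) v ht rfl h2 h z) ▸ (L.bij_tgt hE _ h2).comp hq

theorem Sys.bijective (hE : σ.Edges p) {e e' : El X} (f : e ⟶ e') :
    Function.Bijective (L.map f) := by
  obtain ⟨⟨T⟩, x⟩ := e
  obtain ⟨⟨S⟩, y⟩ := e'
  obtain ⟨⟨g⟩, hg⟩ := f
  change res X g x = y at hg
  have hk : res X (σ.v0 S ≫ g) x = res X (σ.v0 S) y := by rw [res_comp, hg]
  have hb : Function.Bijective
      (L.map (elHom (σ.v0 S) (rfl : res X (σ.v0 S) y = _)) ∘ L.map (elHom g hg)) :=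
    bij_comp_of_eq (fun z => L.map_map g (σ.v0 S) _ rfl hg rfl hk z) <|
      L.bij_vertex hE x (σ.v0 S ≫ g) hk
  exact ((L.bij_vertex hE y (σ.v0 S) rfl).of_comp_iff' _).1 hb

/-- The element of a point. -/
abbrev pointEl (a : X.obj (op σ.pt)) : El X := ⟨op σ.pt, a⟩

/-- **The system is constant.** For a simply connected `X` there are natural bijections from every
value to the value at a chosen point. -/
theorem Sys.exists_trivialisation (hE : σ.Edges p) (hX : σ.SimplyConn p X) (hG : σ.Glues X)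
    (x0 : X.obj (op σ.pt)) :
    ∃ θ : ∀ e, L.obj e → L.obj (pointEl x0),
      (∀ e, Function.Bijective (θ e)) ∧
      (∀ {e e'} (f : e ⟶ e') z, θ e' (L.map f z) = θ e z) ∧
      (∀ e, ∃ (u : X.obj (op (σ.sus.obj p))) (hs : res X (σ.src p) u = x0)
        (ht : res X (σ.tgt p) u = res X (σ.v0 e.pt.unop) e.elt), ∀ z w,
          L.map (elHom (σ.tgt p) ht) w = L.map (elHom (σ.v0 e.pt.unop) rfl) z →
          θ e z = L.map (elHom (σ.src p) hs) w) := by
  choose u hus hut using fun a => hX.edge x0 a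
  let back : ∀ a, L.obj (pointEl a) ≃ L.obj ⟨op (σ.sus.obj p), u a⟩ := fun a =>
    (Equiv.ofBijective _ (L.bij_tgt hE (u a) (hut a))).symm
  let θ : ∀ e : El X, L.obj e → L.obj (pointEl x0) := fun e z =>
    L.map (elHom (σ.src p) (hus (res X (σ.v0 e.pt.unop) e.elt)))
      (back _ (L.map (elHom (σ.v0 e.pt.unop) (rfl : res X (σ.v0 e.pt.unop) e.elt = _)) z))
  refine ⟨θ, fun e => ?_, ?_, fun e => ⟨u _, hus _, hut _, fun z w hw => ?_⟩⟩
  · exact (L.bij_src _ _).comp ((back _).bijective.comp (L.bij_vertex hE _ _ _))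
  · intro e e' f z
    obtain ⟨⟨T⟩, x⟩ := e
    obtain ⟨⟨S⟩, y⟩ := e'
    obtain ⟨⟨g⟩, hg⟩ := f
    change res X g x = y at hg
    change θ ⟨op S, y⟩ (L.map (elHom g hg) z) = θ ⟨op T, x⟩ z
    -- the edge in the representable between the two initial vertices
    obtain ⟨q, qs, qt⟩ := hE T (σ.v0 T) (σ.v0 S ≫ g)
    set a := res X (σ.v0 T) x with ha
    set b := res X (σ.v0 S) y with hb
    set r := res X q x with hr
    have rs : res X (σ.src p) r = a := by rw [hr, ← res_comp, qs]
    have rt : res X (σ.tgt p) r = b := by rw [hr, ← res_comp, qt, res_comp, hg]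
    obtain ⟨zz, ⟨hl, hrr⟩, -⟩ := hG p (σ.sus.obj p) (u a) r (by
      rw [hut a, σ.v0_sus, rs])
    let U := σ.add p (σ.sus.obj p)
    obtain ⟨c, cs, ct⟩ := hE U (σ.src p ≫ σ.inl _ _) (σ.tgt p ≫ σ.inr _ _)
    have hcs : res X (σ.src p) (res X c zz) = x0 := by
      rw [← res_comp, cs, res_comp, hl]; exact hus a
    have hct : res X (σ.tgt p) (res X c zz) = b := by
      rw [← res_comp, ct, res_comp, hrr]; exact rt
    obtain ⟨W, h1, h2, w, hs12, ht12, hw1, hw2⟩ :=
      hX.homotopic (res X c zz) (u b) (hcs.trans (hus b).symm) (hct.trans (hut b).symm)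
    -- follow the element
    set za := L.map (elHom (σ.v0 T) (rfl : res X (σ.v0 T) x = a)) z
    set wa := back a za
    have hwa : L.map (elHom (σ.tgt p) (hut a)) wa = za :=
      (Equiv.ofBijective _ (L.bij_tgt hE (u a) (hut a))).apply_symm_apply za
    set zr := L.map (elHom q (rfl : res X q x = r)) z
    have hzr : L.map (elHom (σ.src p) rs) zr = za := L.map_map q _ _ qs rfl rs rfl z
    have hzb : L.map (elHom (σ.tgt p) rt) zr
        = L.map (elHom (σ.v0 S) (rfl : res X (σ.v0 S) y = b)) (L.map (elHom g hg) z) := by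
      have hk : res X (σ.v0 S ≫ g) x = b := by rw [res_comp, hg]
      rw [L.map_map q _ _ qt rfl rt hk z, L.map_map g _ _ rfl hg rfl hk z]
    obtain ⟨zU, hzU⟩ := (L.bijective hE (elHom (σ.inl _ _) hl)).2 wa
    have hzUr : L.map (elHom (σ.inr _ _) hrr) zU = zr := by
      refine (L.bij_src r rs).1 ?_
      have hm : res X (σ.tgt p ≫ σ.inl p (σ.sus.obj p)) zz = a := by
        rw [res_comp, hl]; exact hut a
      rw [hzr, L.map_map _ _ _ (by rw [σ.glue, σ.v0_sus]) hrr rs hm zU,
        ← L.map_map _ _ _ rfl hl (hut a) hm zU, hzU, hwa]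
    set wc := L.map (elHom c (rfl : res X c zz = res X c zz)) zU
    have hwcs : L.map (elHom (σ.src p) hcs) wc = L.map (elHom (σ.src p) (hus a)) wa := by
      have hm : res X (σ.src p ≫ σ.inl p (σ.sus.obj p)) zz = x0 := by
        rw [res_comp, hl]; exact hus a
      rw [L.map_map c _ _ cs rfl hcs hm zU, ← L.map_map _ _ _ rfl hl (hus a) hm zU, hzU]
    have hwct : L.map (elHom (σ.tgt p) hct) wc = L.map (elHom (σ.tgt p) rt) zr := by
      have hm : res X (σ.tgt p ≫ σ.inr p (σ.sus.obj p)) zz = b := by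
        rw [res_comp, hrr]; exact rt
      rw [L.map_map c _ _ ct rfl hct hm zU, ← L.map_map _ _ _ rfl hrr rt hm zU, hzUr]
    obtain ⟨zW, hzW⟩ := (L.bijective hE (elHom h1 hw1)).2 wc
    set wb := L.map (elHom h2 hw2) zW
    have hwbs : L.map (elHom (σ.src p) (hus b)) wb = L.map (elHom (σ.src p) hcs) wc := by
      have hm : res X (σ.src p ≫ h1) w = x0 := by rw [res_comp, hw1]; exact hcs
      rw [L.map_map h2 _ _ hs12.symm hw2 (hus b) hm zW, ← L.map_map h1 _ _ rfl hw1 hcs hm zW, hzW]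
    have hwbt : L.map (elHom (σ.tgt p) (hut b)) wb = L.map (elHom (σ.tgt p) hct) wc := by
      have hm : res X (σ.tgt p ≫ h1) w = b := by rw [res_comp, hw1]; exact hct
      rw [L.map_map h2 _ _ ht12.symm hw2 (hut b) hm zW, ← L.map_map h1 _ _ rfl hw1 hct hm zW, hzW]
    have hback : back b (L.map (elHom (σ.v0 S) (rfl : res X (σ.v0 S) y = b))
        (L.map (elHom g hg) z)) = wb := by
      rw [← hzb, ← hwct, ← hwbt]
      exact (Equiv.ofBijective _ (L.bij_tgt hE (u b) (hut b))).symm_apply_apply wb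
    show L.map (elHom (σ.src p) (hus b)) (back b _) = L.map (elHom (σ.src p) (hus a)) wa
    rw [hback, hwbs, hwcs]
  · show L.map (elHom (σ.src p) (hus _)) (back _ _) = _
    rw [← hw]
    exact congrArg _ ((Equiv.ofBijective _ (L.bij_tgt hE _ (hut _))).symm_apply_apply w)

end Vale.Agent.P259.Elem
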