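import Vale.Agent.P259.Cat.Natural
import Vale.Agent.P259.Elem.Transport

/-!
# P259, module C: the suspension map on homology and when it is bijective

`suspMap : H_k(Hom_X(x0, x0)) → H_{k+1}(X)` for the homology of categories of elements, natural in
`X`; it is bijective when `X` is simply connected and all its hom-models are acyclic below `k`.
-/

universe u

open CategoryTheory Opposite

namespace Vale.Agent.P259.Elem

open Vale.Agent.P259.Cat

variable {C D : Type u} [SmallCategory C] [SmallCategory D] {σ : Susp C D}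

namespace Susp

/-- The fibre profunctor has universal elements. -/
noncomputable def fibreUniv {X : Psh C} {x0 : X.obj (op σ.pt)} (hX : σ.Glues X) (e : El X)
    (c : X.obj (op σ.pt)) (hc : res X (σ.v0 e.pt.unop) e.elt = c)
    (a : El (σ.homPsh X x0 c)) : Univ ((fibre e x0 c).flip a) :=
  (fibre_flip_glue e c hX hc a).some

/-- The hom-models of representables are acyclic. -/
def YonAcyclic (σ : Susp C D) : Prop :=
  ∀ (U : C) (a b : (yon U).obj (op σ.pt)) (j : ℕ), (chains (σ.homPsh (yon U) a b)).Exact j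

variable {X : Psh C} (hX : σ.Glues X) (x0 : X.obj (op σ.pt))

/-- Maps from `x0` to the first vertex of `e`, against the fibre over `e`. -/
noncomputable def fibreMap (e : El X) (c : X.obj (op σ.pt))
    (hc : res X (σ.v0 e.pt.unop) e.elt = c) (k : ℕ) :
    (chains (σ.homPsh X x0 c)).H k →+ (chains ((below X x0).W e)).H k :=
  (El.homologyEquiv ((below X x0).W e) k).toAddMonoidHom.comp
    (((fibre e x0 c).sigma (fibreUniv hX e c hc) k).comp
      (El.homologyEquiv (σ.homPsh X x0 c) k).symm.toAddMonoidHom)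

theorem fibreMap_bijective (hY : σ.YonAcyclic) (e : El X) (c : X.obj (op σ.pt))
    (hc : res X (σ.v0 e.pt.unop) e.elt = c) (k : ℕ) :
    Function.Bijective (fibreMap hX x0 e c hc k) :=
  (El.homologyEquiv _ k).bijective.comp
    (((fibre e x0 c).sigma_bijective (fibreUniv hX e c hc) k fun b i _ =>
      (exact_iff_of_fibrewise _ (fibreToHom_bijective e c hc b) i).2 (hY _ _ _ i)).comp
      (El.homologyEquiv _ k).symm.bijective)

variable (σ) in
/-- Compare two fibres along a map preserving the initial vertex. -/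
def fibreTransition (x0 c : X.obj (op σ.pt)) {e e' : El X} (f : e ⟶ e')
    (hf : σ.v0 e'.pt.unop ≫ f.1.unop = σ.v0 e.pt.unop) :
    ProfHom (fibre e x0 c) (fibre e' x0 c) where
  G1 := El.map ((below X x0).act f)
  G2 := 𝟭 _
  app b := ⟨fun a h => ⟨h.1, h.2.1,
      h.2.2.1.trans ((congrArg (· ≫ b.elt.1) hf.symm).trans (Category.assoc _ _ _)), h.2.2.2⟩,
    fun g h => rfl⟩
  nat _ _ _ := rfl

/-- The homology of the fibres. -/
noncomputable abbrev fibreSys (hX : σ.Glues X) (hY : σ.YonAcyclic) (x0 : X.obj (op σ.pt)) (k : ℕ) :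
    Sys σ X where
  obj e := (chains ((below X x0).W e)).H k
  map f := (chainsMap ((below X x0).act f)).mapH k
  map_comp f g x := by
    obtain ⟨x, rfl⟩ := (chains _).cls_surjective k x
    refine congrArg (Cx.cls _ k) (Subtype.ext ?_)
    show mapL ((below X x0).act (f ≫ g)) k x.1
      = mapL ((below X x0).act g) k (mapL ((below X x0).act f) k x.1)
    rw [mapL_mapL, (below X x0).act_act]
  bij {e e'} f hf := by
    have hc' : res X (σ.v0 e'.pt.unop) e'.elt = res X (σ.v0 e.pt.unop) e.elt := by
      rw [← hf, res_comp]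
      exact congrArg (res X (σ.v0 e'.pt.unop)) f.2.symm
    have h1 := fibreMap_bijective hX x0 hY e _ rfl k
    have h2 := fibreMap_bijective hX x0 hY e' _ hc' k
    have h3 : ((chainsMap ((below X x0).act f)).mapH k) ∘ fibreMap hX x0 e _ rfl k
        = fibreMap hX x0 e' _ hc' k := by
      funext y
      show (chainsMap ((below X x0).act f)).mapH k (fibreMap hX x0 e _ rfl k y)
        = fibreMap hX x0 e' _ hc' k y
      simp only [fibreMap, AddMonoidHom.comp_apply]
      refine (El.homologyEquiv_natural _ k _).symm.trans (congrArg (El.homologyEquiv _ k) ?_)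
      exact ((fibreTransition σ x0 _ f hf).sigma_natural _ (fibreUniv hX e' _ hc') k _).trans
        (congrArg _ (nerveMap_id k _))
    exact (Function.Bijective.of_comp_iff _ h1).1 (h3 ▸ h2)

/-- The element of the chosen point. -/
abbrev base (x0 : X.obj (op σ.pt)) : El X := ⟨op σ.pt, x0⟩

theorem base_first (x0 : X.obj (op σ.pt)) :
    res X (σ.v0 (base x0).pt.unop) (base x0).elt = x0 := by
  rw [show σ.v0 (base x0).pt.unop = σ.v0 σ.pt from rfl, σ.v0_pt]
  exact res_id X x0

/-- **Suspension on homology.** -/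
noncomputable def suspMap (k : ℕ) :
    (chains (σ.homPsh X x0 x0)).H k →+ (chains X).H (k + 1) :=
  (El.homologyEquiv X (k + 1)).toAddMonoidHom.comp <|
    ((below X x0).transMap (fun b => belowUniv b)
      (exact_of_initial (pointedInitial X x0) k) (exact_of_initial (pointedInitial X x0) (k + 1))
      (base x0)).comp (fibreMap hX x0 (base x0) x0 (base_first x0) k)

theorem zigzag_el (p : D) (hE : σ.Edges p) (hS : σ.SimplyConn p X) (e e' : El X) :
    Zigzag e e' := by
  obtain ⟨⟨T⟩, x⟩ := e
  obtain ⟨⟨S⟩, y⟩ := e'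
  obtain ⟨u, hs, ht⟩ := hS.edge (res X (σ.v0 T) x) (res X (σ.v0 S) y)
  exact ((Zigzag.of_hom (elHom (σ.v0 T) rfl)).trans
    (Zigzag.of_inv (elHom (σ.src p) hs))).trans
      ((Zigzag.of_hom (elHom (σ.tgt p) ht)).trans (Zigzag.of_inv (elHom (σ.v0 S) rfl)))

theorem suspMap_bijective (p : D) (hE : σ.Edges p) (hS : σ.SimplyConn p X) (hY : σ.YonAcyclic)
    (k : ℕ) (hlow : ∀ a j, j < k → (chains (σ.homPsh X x0 a)).Exact j) :
    Function.Bijective (suspMap hX x0 k) := by
  obtain ⟨θ, hb, hnat, hform⟩ :=
    (fibreSys hX hY x0 k).exists_trivialisation hE hS hX x0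
  let θ' : ∀ e, (chains ((below X x0).W e)).H k →+ (chains ((below X x0).W (pointEl x0))).H k :=
    fun e => AddMonoidHom.mk' (θ e) fun z z' => by
      obtain ⟨u, hs, ht, h⟩ := hform e
      obtain ⟨w, hw⟩ := ((fibreSys hX hY x0 k).bij_tgt hE u ht).2
        ((fibreSys hX hY x0 k).map (elHom (σ.v0 e.pt.unop) rfl) z)
      obtain ⟨w', hw'⟩ := ((fibreSys hX hY x0 k).bij_tgt hE u ht).2
        ((fibreSys hX hY x0 k).map (elHom (σ.v0 e.pt.unop) rfl) z')
      have hsum := h (z + z') (w + w') (by
        refine (map_add ((chainsMap ((below X x0).act (elHom (σ.tgt p) ht))).mapH k) w w').trans ?_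
        refine Eq.trans ?_
          (map_add ((chainsMap ((below X x0).act (elHom (σ.v0 e.pt.unop) rfl))).mapH k) z z').symm
        exact congrArg₂ (· + ·) hw hw')
      refine hsum.trans ((map_add ((chainsMap ((below X x0).act (elHom (σ.src p) hs))).mapH k) w w').trans ?_)
      exact congrArg₂ (· + ·) (h z w hw).symm (h z' w' hw').symm
  have hfib : ∀ (a : El X) j, j < k → (chains ((below X x0).W a)).Exact j := by
    intro a j hj
    have h1 := (Cx.exact_iff_subsingleton _ j).1 (hlow (res X (σ.v0 a.pt.unop) a.elt) j hj)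
    rw [Cx.exact_iff_subsingleton]
    exact (fibreMap_bijective hX x0 hY a _ rfl j).2.subsingleton
  exact (El.homologyEquiv X (k + 1)).bijective.comp
    (((below X x0).transMap_bijective (fun b => belowUniv b)
      (exact_of_initial (pointedInitial X x0) k) (exact_of_initial (pointedInitial X x0) (k + 1))
      hfib θ' hnat (zigzag_el p hE hS) hb (base x0)).comp
      (fibreMap_bijective hX x0 hY _ _ _ k))

variable {Y : Psh C} (f : ShHom X Y)

theorem res_app {S T : C} (g : S ⟶ T) (x : X.obj (op T)) :
    f.app (op S) (res X g x) = res Y g (f.app (op T) x) :=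
  f.nat g.op x

/-- Maps of hom-models. -/
def homMap (a b : X.obj (op σ.pt)) :
    ShHom (σ.homPsh X a b) (σ.homPsh Y (f.app _ a) (f.app _ b)) :=
  ⟨fun S s => ⟨f.app _ s.1, by rw [← res_app f, s.2.1], by rw [← res_app f, s.2.2]⟩,
    fun g s => Subtype.ext (res_app f _ _)⟩

variable (σ) in
/-- The functor on pointed objects. -/
def pointedMap : σ.Pointed X x0 ⥤ σ.Pointed Y (f.app _ x0) where
  obj b := ⟨b.U, f.app _ b.y, by rw [← res_app f, b.based]⟩
  map {_ b'} k := ⟨k.1, k.2.1, (res_app f k.1 b'.y).symm.trans (congrArg (f.app _) k.2.2)⟩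

variable (σ) in
/-- The map of `below`. -/
def belowMap : ProfHom (below (σ := σ) X x0) (below (σ := σ) Y (f.app _ x0)) where
  G1 := El.map f
  G2 := pointedMap σ x0 f
  app e := ⟨fun b g => ⟨g.1, by
      refine Eq.trans ?_ (congrArg (f.app _) g.2)
      exact (res_app f g.1 b.y).symm⟩, fun k g => rfl⟩
  nat _ _ _ := rfl

variable (σ) in
/-- The map of fibres. -/
def fibreHom (e : El X) (c : X.obj (op σ.pt)) :
    ProfHom (fibre e x0 c) (fibre ((El.map f).obj e) (f.app _ x0) (f.app _ c)) where
  G1 := El.pushFunctor ((belowMap σ x0 f).app e)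
  G2 := El.map (homMap f x0 c)
  app b := ⟨fun a h => ⟨h.1, h.2.1, h.2.2.1, by
      refine Eq.trans ?_ (congrArg (f.app _) h.2.2.2)
      exact (res_app f h.1 b.pt.y).symm⟩, fun g h => rfl⟩
  nat _ _ _ := rfl

/-- **The suspension map is natural.** -/
theorem suspMap_natural (hY' : σ.Glues Y) (k : ℕ) (z : (chains (σ.homPsh X x0 x0)).H k) :
    (chainsMap f).mapH (k + 1) (suspMap hX x0 k z)
      = suspMap hY' (f.app _ x0) k ((chainsMap (homMap f x0 x0)).mapH k z) := by
  have hfib : (chainsPush ((belowMap σ x0 f).app (base x0))).mapH k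
      (fibreMap hX x0 (base x0) x0 (base_first x0) k z)
      = fibreMap hY' (f.app _ x0) (base (f.app _ x0)) (f.app _ x0) (base_first _) k
          ((chainsMap (homMap f x0 x0)).mapH k z) := by
    simp only [fibreMap, AddMonoidHom.comp_apply]
    refine (El.homologyEquiv_push _ k _).symm.trans (congrArg (El.homologyEquiv _ k) ?_)
    refine ((fibreHom σ x0 f (base x0) x0).sigma_natural _
      (fibreUniv hY' _ _ (base_first (f.app _ x0))) k _).trans (congrArg _ ?_)
    refine (El.homologyEquiv _ k).eq_symm_apply.2 ?_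
    exact (El.homologyEquiv_natural (homMap f x0 x0) k _).trans
      (congrArg _ ((El.homologyEquiv _ k).apply_symm_apply z))
  simp only [suspMap, AddMonoidHom.comp_apply]
  refine (El.homologyEquiv_natural f (k + 1) _).symm.trans (congrArg (El.homologyEquiv Y (k + 1)) ?_)
  refine ((belowMap σ x0 f).transMap_natural _ (fun b => belowUniv b) _ _
    (exact_of_initial (pointedInitial Y (f.app _ x0)) k)
    (exact_of_initial (pointedInitial Y (f.app _ x0)) (k + 1)) (base x0) _).trans ?_
  exact congrArg _ hfib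

end Susp

end Vale.Agent.P259.Elem
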